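import Vale.Agent.P271.MathlibUsed
import Vale.Agent.P271.Defs

set_option linter.all false

section

section

open MvPolynomial

namespace Vale.Agent.P271

/-- The translation automorphism `X_i ↦ X_i + C (p_i)`. -/
noncomputable def translate {ι : Type} (p : ι → ℂ) :
    MvPolynomial ι ℂ ≃ₐ[ℂ] MvPolynomial ι ℂ :=
  AlgEquiv.ofAlgHom (aeval (fun i => X i + C (p i))) (aeval (fun i => X i - C (p i)))
    (by ext i; simp) (by ext i; simp)

lemma aeval_zero_translate {ι : Type} (p : ι → ℂ) (q : MvPolynomial ι ℂ) :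
    aeval (0 : ι → ℂ) (translate p q) = aeval p q := by
  have : ((aeval (0 : ι → ℂ)).comp (translate p : MvPolynomial ι ℂ →ₐ[ℂ] MvPolynomial ι ℂ))
      = (aeval p : MvPolynomial ι ℂ →ₐ[ℂ] ℂ) := by
    ext i
    simp [translate]
  exact DFunLike.congr_fun this q

lemma height_origin {ι : Type} [Fintype ι] :
    ((vanishingIdeal ℂ {(0 : ι → ℂ)} : Ideal (MvPolynomial ι ℂ)).height : WithBot ℕ∞)
      = (Fintype.card ι : ℕ) := by
  have hdim : ringKrullDim (MvPolynomial ι ℂ) = (Fintype.card ι : ℕ) := by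
    rw [MvPolynomial.ringKrullDim_of_isNoetherianRing]
    simp only [ringKrullDim_eq_zero_of_field, Nat.card_eq_fintype_card, zero_add]
  have hfin : FiniteRingKrullDim (MvPolynomial ι ℂ) := by
    rw [finiteRingKrullDim_iff_ne_bot_and_top, hdim]
    constructor
    · exact WithBot.coe_ne_bot
    · intro h
      have : ((Fintype.card ι : ℕ∞) : WithBot ℕ∞) = ((⊤ : ℕ∞) : WithBot ℕ∞) := h
      rw [WithBot.coe_inj] at this
      exact ENat.coe_ne_top _ this
  obtain ⟨M, hM, hMh⟩ := Ideal.exists_isMaximal_height (R := MvPolynomial ι ℂ)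
  obtain ⟨p, rfl⟩ := (isMaximal_iff_eq_vanishingIdeal_singleton).1 hM
  have key : (vanishingIdeal ℂ {p} : Ideal (MvPolynomial ι ℂ))
      = Ideal.comap (translate p).toRingEquiv (vanishingIdeal ℂ {(0 : ι → ℂ)}) := by
    ext q
    rw [Ideal.mem_comap, mem_vanishingIdeal_singleton_iff, mem_vanishingIdeal_singleton_iff]
    exact (aeval_zero_translate p q) ▸ Iff.rfl
  rw [key, RingEquiv.height_comap] at hMh
  rw [hMh, hdim]

/-- If finitely many polynomials vanishing at the origin have no other common zero, there are at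
least as many of them as variables (Krull's height theorem). -/
theorem card_le_card_of_unique_zero {ι κ : Type} [Fintype ι] [Fintype κ]
    (g : κ → MvPolynomial ι ℂ) (h0 : ∀ j, eval 0 (g j) = 0)
    (h : ∀ x : ι → ℂ, (∀ j, eval x (g j) = 0) → x = 0) : Fintype.card ι ≤ Fintype.card κ := by
  classical
  set I : Ideal (MvPolynomial ι ℂ) := Ideal.span (Set.range g) with hI
  have hz : zeroLocus ℂ I = {(0 : ι → ℂ)} := by
    rw [hI, zeroLocus_span]
    ext x
    simp only [Set.mem_range, forall_exists_index, forall_apply_eq_imp_iff, Set.mem_setOf_eq,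
      Set.mem_singleton_iff, MvPolynomial.coe_aeval_eq_eval]
    constructor
    · intro hx
      exact h x hx
    · rintro rfl
      exact h0
  have hrad : I.radical = vanishingIdeal ℂ {(0 : ι → ℂ)} := by
    rw [← vanishingIdeal_zeroLocus_eq_radical (K := ℂ), hz]
  have hmin : (vanishingIdeal ℂ {(0 : ι → ℂ)} : Ideal (MvPolynomial ι ℂ)) ∈ I.minimalPrimes := by
    rw [← hrad, ← Ideal.radical_minimalPrimes, hrad]
    rw [Ideal.minimalPrimes_eq_subsingleton_self]
    exact Set.mem_singleton _
  have hh := Ideal.height_le_card_of_mem_minimalPrimes_span (Set.finite_range g) hmin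
  have h1 : ((Fintype.card ι : ℕ∞) : WithBot ℕ∞) ≤ (((Set.range g).ncard : ℕ∞) : WithBot ℕ∞) := by
    have := height_origin (ι := ι)
    have h2 : ((Fintype.card ι : ℕ) : WithBot ℕ∞) = ((Fintype.card ι : ℕ∞) : WithBot ℕ∞) := rfl
    rw [← h2, ← this]
    exact WithBot.coe_le_coe.2 hh
  have h3 : Fintype.card ι ≤ (Set.range g).ncard := by
    have := WithBot.coe_le_coe.1 h1
    exact_mod_cast this
  refine h3.trans ?_
  have : (Set.range g).ncard ≤ Fintype.card κ := by
    rw [← Nat.card_coe_set_eq, Nat.card_eq_fintype_card]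
    exact Fintype.card_range_le g
  exact this

end Vale.Agent.P271
end
end

section

section

open Finset

namespace Vale.Agent.P271

/-- `(n - 1) / log n`, extended by `1` for `n ≤ 1`. -/
noncomputable def psi (n : ℕ) : ℝ := if n ≤ 1 then 1 else ((n : ℝ) - 1) / Real.log n

lemma log_mul_psi (n : ℕ) (hn : 1 ≤ n) : Real.log n * psi n = (n : ℝ) - 1 := by
  unfold psi
  split_ifs with h
  · have : n = 1 := le_antisymm h hn
    subst this; simp
  · have h2 : (1 : ℝ) < n := by exact_mod_cast (not_le.1 h)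
    have : Real.log n ≠ 0 := ne_of_gt (Real.log_pos h2)
    (clear * - this; field_simp)

lemma psi_le_succ (m : ℕ) (hm : 1 ≤ m) : psi m ≤ psi (m + 1) := by
  rcases Nat.lt_or_ge 1 m with h | h
  · have h1 : (1 : ℝ) < m := by exact_mod_cast h
    have hl : 0 < Real.log m := Real.log_pos h1
    have hl' : 0 < Real.log ((m : ℝ) + 1) := Real.log_pos (by linarith only [h1])
    unfold psi
    rw [if_neg (not_le.2 h), if_neg (by omega)]
    push_cast
    rw [div_le_div_iff₀ hl hl']
    have hm0 : (0 : ℝ) < m := by linarith only [h1]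
    have hc := strictConcaveOn_log_Ioi.concaveOn.2
      (show (m : ℝ) + 1 ∈ Set.Ioi (0 : ℝ) from Set.mem_Ioi.2 (by linarith only []))
      (show (1 : ℝ) ∈ Set.Ioi (0 : ℝ) from Set.mem_Ioi.2 one_pos)
      (show (0 : ℝ) ≤ ((m : ℝ) - 1) / m by apply div_nonneg <;> linarith only [h1])
      (show (0 : ℝ) ≤ 1 / m by positivity)
      (show ((m : ℝ) - 1) / m + 1 / m = 1 by field_simp; ring)
    simp only [smul_eq_mul, Real.log_one, mul_zero, add_zero] at hc
    have he : ((m : ℝ) - 1) / m * (m + 1) + 1 / m * 1 = m := by field_simp; ring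
    rw [he] at hc
    have := mul_le_mul_of_nonneg_left hc hm0.le
    have e2 : (m : ℝ) * (((m : ℝ) - 1) / m * Real.log (m + 1)) = (m - 1) * Real.log (m + 1) := by
      field_simp
    rw [e2] at this
    linarith only [this]
  · have : m = 1 := le_antisymm h hm
    subst this
    unfold psi
    simp only [le_refl, if_true, Nat.reduceAdd, Nat.not_ofNat_le_one, if_false]
    have hl : 0 < Real.log 2 := Real.log_pos (by norm_num)
    push_cast
    rw [le_div_iff₀ hl]
    have := Real.log_le_sub_one_of_pos (show (0 : ℝ) < 2 by norm_num)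
    linarith only [this]

lemma psi_eq_sum (n M : ℕ) (hn : 1 ≤ n) (hM : n ≤ M) :
    psi n = 1 + ∑ m ∈ Ico 1 M, if m < n then (psi (m + 1) - psi m) else 0 := by
  have h1 : ∑ m ∈ Ico 1 M, (if m < n then (psi (m + 1) - psi m) else 0)
      = ∑ m ∈ Ico 1 n, (psi (m + 1) - psi m) := by
    rw [← Finset.sum_filter]
    apply Finset.sum_congr _ (fun _ _ => rfl)
    ext m
    simp only [mem_filter, mem_Ico]
    omega
  rw [h1, Finset.sum_Ico_sub _ hn]
  have : psi 1 = 1 := by simp [psi]
  rw [this]; ring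

lemma sum_sub_one_eq {κ : Type} [Fintype κ] (d : κ → ℕ) (hd : ∀ j, 1 ≤ d j) (M : ℕ)
    (hM : ∀ j, d j ≤ M) :
    ∑ j, ((d j : ℝ) - 1) = Real.log (∏ j, (d j : ℝ)) +
      ∑ m ∈ Ico 1 M, (psi (m + 1) - psi m) * Real.log (∏ j with m + 1 ≤ d j, (d j : ℝ)) := by
  have hne : ∀ j, (d j : ℝ) ≠ 0 := fun j => by
    have := hd j
    (clear * - this; positivity)
  rw [Real.log_prod (fun j _ => hne j)]
  have h1 : ∀ m ∈ Ico 1 M, (psi (m + 1) - psi m) * Real.log (∏ j with m + 1 ≤ d j, (d j : ℝ))
      = ∑ j, Real.log (d j) * (if m < d j then (psi (m + 1) - psi m) else 0) := by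
    intro m _
    rw [Real.log_prod (fun j _ => hne j), Finset.sum_filter, Finset.mul_sum]
    apply Finset.sum_congr rfl
    intro j _
    by_cases h : m < d j
    · rw [if_pos (by omega), if_pos h]; ring
    · rw [if_neg (by omega), if_neg h]; ring
  rw [Finset.sum_congr rfl h1, Finset.sum_comm, ← Finset.sum_add_distrib]
  apply Finset.sum_congr rfl
  intro j _
  rw [← Finset.mul_sum, ← log_mul_psi (d j) (hd j), psi_eq_sum (d j) M (hd j) (hM j)]
  ring

lemma prod_filter_one {κ : Type} [Fintype κ] (d : κ → ℕ) (hd : ∀ j, 1 ≤ d j) :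
    ∏ j with 2 ≤ d j, d j = ∏ j, d j := by
  rw [Finset.prod_filter]
  apply Finset.prod_congr rfl
  intro j _
  split_ifs with h
  · rfl
  · have := hd j
    omega

/-- Summation by parts: if for every `v ≥ 2` the product of the `δ_l ≥ v` is at most the product of
the `d_j ≥ v`, then `∑ (δ_l - 1) ≤ ∑ (d_j - 1)`. -/
theorem sum_sub_one_le_of_prod_le {κ ι : Type} [Fintype κ] [Fintype ι] (d : κ → ℕ) (δ : ι → ℕ)
    (hd : ∀ j, 1 ≤ d j) (hδ : ∀ l, 1 ≤ δ l)
    (h : ∀ v, 2 ≤ v → ∏ l with v ≤ δ l, δ l ≤ ∏ j with v ≤ d j, d j) :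
    ∑ l, (δ l - 1) ≤ ∑ j, (d j - 1) := by
  obtain ⟨M, hM1, hM2⟩ : ∃ M, (∀ j, d j ≤ M) ∧ (∀ l, δ l ≤ M) :=
    ⟨∑ j, d j + ∑ l, δ l, fun j => (Finset.single_le_sum (fun _ _ => Nat.zero_le _)
      (mem_univ j)).trans (Nat.le_add_right _ _), fun l => (Finset.single_le_sum
      (fun _ _ => Nat.zero_le _) (mem_univ l)).trans (Nat.le_add_left _ _)⟩
  have key : ∑ l, ((δ l : ℝ) - 1) ≤ ∑ j, ((d j : ℝ) - 1) := by
    rw [sum_sub_one_eq d hd M hM1, sum_sub_one_eq δ hδ M hM2]
    have hlog : ∀ v, 2 ≤ v → Real.log (∏ l with v ≤ δ l, (δ l : ℝ)) ≤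
        Real.log (∏ j with v ≤ d j, (d j : ℝ)) := by
      intro v hv
      apply Real.log_le_log
      · apply Finset.prod_pos
        intro l _
        have := hδ l
        positivity
      · have := h v hv
        exact_mod_cast this
    apply add_le_add
    · have h2 := hlog 2 le_rfl
      have e1 := prod_filter_one d hd
      have e2 := prod_filter_one δ hδ
      have e1' : ∏ j with 2 ≤ d j, (d j : ℝ) = ∏ j, (d j : ℝ) := by exact_mod_cast e1
      have e2' : ∏ j with 2 ≤ δ j, (δ j : ℝ) = ∏ j, (δ j : ℝ) := by exact_mod_cast e2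
      rwa [e1', e2'] at h2
    · apply Finset.sum_le_sum
      intro m hm
      rw [mem_Ico] at hm
      apply mul_le_mul_of_nonneg_left (hlog (m + 1) (by omega))
      have := psi_le_succ m hm.1
      linarith only [this]
  have c1 : ∑ l, ((δ l : ℝ) - 1) = ((∑ l, (δ l - 1) : ℕ) : ℝ) := by
    push_cast
    apply Finset.sum_congr rfl
    intro l _
    rw [Nat.cast_sub (hδ l)]; simp
  have c2 : ∑ j, ((d j : ℝ) - 1) = ((∑ j, (d j - 1) : ℕ) : ℝ) := by
    push_cast
    apply Finset.sum_congr rfl
    intro l _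
    rw [Nat.cast_sub (hd l)]; simp
  rw [c1, c2] at key
  exact_mod_cast key

end Vale.Agent.P271
end
end

section

section

namespace Vale.Agent.P271

/-- Solving `g ∣ t - a z` with `1 ≤ z` and `a z ≤ lcm a g`. -/
lemma exists_small_solution (a g t : ℕ) (ha : 0 < a) (hg : 0 < g) (h : Nat.gcd a g ∣ t) :
    ∃ z : ℕ, 1 ≤ z ∧ a * z ≤ Nat.lcm a g ∧ (g : ℤ) ∣ (t : ℤ) - a * z := by
  obtain ⟨s, hs⟩ := h
  have hgcd : 0 < Nat.gcd a g := Nat.gcd_pos_of_pos_left _ ha
  set q := g / Nat.gcd a g with hq
  have hgq : Nat.gcd a g * q = g := Nat.mul_div_cancel' (Nat.gcd_dvd_right a g)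
  have hq0 : 0 < q := Nat.pos_of_ne_zero (by rintro h0; rw [h0] at hgq; omega)
  have hlcm : a * q = Nat.lcm a g := by
    have h1 := Nat.gcd_mul_lcm a g
    have h2 : Nat.gcd a g * (a * q) = Nat.gcd a g * Nat.lcm a g := by
      rw [h1]
      calc Nat.gcd a g * (a * q) = a * (Nat.gcd a g * q) := by ring
        _ = a * g := by rw [hgq]
    exact Nat.eq_of_mul_eq_mul_left hgcd h2
  have hbez := Nat.gcd_eq_gcd_ab a g
  set u := Nat.gcdA a g
  set v := Nat.gcdB a g
  set y : ℤ := u * s with hy
  have hq0' : (0 : ℤ) < q := by exact_mod_cast hq0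
  have hm0 := Int.emod_nonneg (y - 1) hq0'.ne'
  have hm1 := Int.emod_lt_of_pos (y - 1) hq0'
  have hdiv := Int.emod_add_mul_ediv (y - 1) q
  refine ⟨((y - 1) % q + 1).toNat, ?_, ?_, ?_⟩
  · omega
  · rw [← hlcm]
    apply Nat.mul_le_mul_left
    omega
  · have hz : ((((y - 1) % q + 1).toNat : ℕ) : ℤ) = (y - 1) % q + 1 := Int.toNat_of_nonneg (by omega)
    rw [hz]
    have hz2 : (y - 1) % (q : ℤ) + 1 = y - q * ((y - 1) / q) := by linarith only [hdiv]
    rw [hz2, hs]
    have hg' : (g : ℤ) ∣ (a : ℤ) * q := by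
      have : g ∣ a * q := by rw [hlcm]; exact Nat.dvd_lcm_right a g
      exact_mod_cast this
    obtain ⟨w, hw⟩ := hg'
    refine ⟨v * s + w * ((y - 1) / q), ?_⟩
    push_cast
    rw [hbez, mul_sub, hy]
    have : (a : ℤ) * (q * ((u * s - 1) / q)) = (g : ℤ) * w * ((u * s - 1) / q) := by
      rw [← hw]; ring
    rw [this]; ring

/-- Brauer's bound, recorded with a list `L` of the successive least common multiples. -/
theorem brauer {ι : Type} [DecidableEq ι] (a : ι → ℕ) (I : Finset ι) (hI : I.Nonempty)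
    (ha : ∀ i ∈ I, 0 < a i) :
    ∃ L : List ℕ, L.length + 1 = I.card ∧ L.prod * I.gcd a = ∏ i ∈ I, a i ∧
      (∀ x ∈ L, 0 < x) ∧
      (∀ x ∈ L, ∃ i ∈ I, ∃ i' ∈ I, i ≠ i' ∧ x ≤ Nat.lcm (a i) (a i')) ∧
      ∀ t, I.gcd a ∣ t → L.sum < t →
        ∃ z : ι → ℕ, (∀ i ∈ I, 1 ≤ z i) ∧ ∑ i ∈ I, a i * z i = t := by
  induction I using Finset.cons_induction with
  | empty => exact absurd hI (by simp)
  | cons l I hl ih =>
    rcases I.eq_empty_or_nonempty with rfl | hne
    · refine ⟨[], by simp, by simp, by simp, by simp only [List.not_mem_nil, Finset.cons_eq_insert, insert_empty_eq, Finset.mem_singleton, ne_eq, exists_eq_left, not_true_eq_false, Nat.lcm_self, false_and, imp_self, implies_true], ?_⟩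
      intro t ht ht0
      simp only [Finset.cons_empty, Finset.gcd_singleton, normalize_eq] at ht
      obtain ⟨z, rfl⟩ := ht
      refine ⟨fun _ => z, ?_, by simp⟩
      intro i _
      simp only [List.sum_nil] at ht0
      exact Nat.pos_of_ne_zero (by rintro rfl; simp at ht0)
    · obtain ⟨L, hlen, hprod, hpos, hlcm, hrep⟩ := ih hne (fun i hi => ha i (by simp [hi]))
      have hal : 0 < a l := ha l (by simp)
      obtain ⟨i0, hi0⟩ := hne
      have hg0 : 0 < I.gcd a := by
        apply Nat.pos_of_ne_zero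
        intro h
        rw [Finset.gcd_eq_zero_iff] at h
        have := ha i0 (by simp [hi0])
        have := h i0 hi0
        omega
      have hgcd : (Finset.cons l I hl).gcd a = Nat.gcd (a l) (I.gcd a) := by
        rw [Finset.cons_eq_insert, Finset.gcd_insert]; rfl
      refine ⟨Nat.lcm (a l) (I.gcd a) :: L, by rw [List.length_cons, Finset.card_cons, hlen],
        ?_, ?_, ?_, ?_⟩
      · rw [hgcd, Finset.prod_cons, ← hprod, List.prod_cons]
        calc Nat.lcm (a l) (I.gcd a) * L.prod * Nat.gcd (a l) (I.gcd a)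
            = L.prod * (Nat.gcd (a l) (I.gcd a) * Nat.lcm (a l) (I.gcd a)) := by ring
          _ = a l * (L.prod * I.gcd a) := by rw [Nat.gcd_mul_lcm]; ring
      · intro x hx
        rcases List.mem_cons.1 hx with rfl | hx
        · exact Nat.lcm_pos hal hg0
        · exact hpos x hx
      · intro x hx
        rcases List.mem_cons.1 hx with rfl | hx
        · refine ⟨l, by simp, i0, by simp [hi0], fun h => hl (h ▸ hi0), ?_⟩
          apply Nat.le_of_dvd (Nat.lcm_pos hal (ha i0 (by simp [hi0])))
          exact Nat.lcm_dvd (Nat.dvd_lcm_left _ _)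
            ((Finset.gcd_dvd hi0).trans (Nat.dvd_lcm_right _ _))
        · obtain ⟨i, hi, i', hi', h1, h2⟩ := hlcm x hx
          exact ⟨i, by simp [hi], i', by simp [hi'], h1, h2⟩
      · intro t ht hLt
        rw [hgcd] at ht
        obtain ⟨z, hz1, hz2, hz3⟩ := exists_small_solution (a l) (I.gcd a) t hal hg0 ht
        rw [List.sum_cons] at hLt
        have hle : a l * z ≤ t := by omega
        have hdvd : I.gcd a ∣ t - a l * z := by
          have : ((t - a l * z : ℕ) : ℤ) = (t : ℤ) - a l * z := by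
            rw [Nat.cast_sub hle]; push_cast; rfl
          rw [← this] at hz3
          exact_mod_cast hz3
        obtain ⟨y, hy1, hy2⟩ := hrep (t - a l * z) hdvd (by omega)
        refine ⟨fun i => if i = l then z else y i, ?_, ?_⟩
        · intro i hi
          dsimp only
          split_ifs with h
          · exact hz1
          · rcases Finset.mem_cons.1 hi with h' | h'
            · exact absurd h' h
            · exact hy1 i h'
        · simp only [Finset.sum_cons, if_true]
          have : ∑ i ∈ I, a i * (if i = l then z else y i) = ∑ i ∈ I, a i * y i := by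
            apply Finset.sum_congr rfl
            intro i hi
            rw [if_neg (fun h : i = l => hl (h ▸ hi))]
          rw [this, hy2]
          omega

end Vale.Agent.P271
end
end

section

section

open Finset

namespace Vale.Agent.P271

/-- `t` is a combination of the weights in `G`. -/
def InS {ι : Type} [Fintype ι] (a : ι → ℕ) (G : Finset ι) (t : ℕ) : Prop :=
  ∃ s : ι → ℕ, (∀ i, i ∉ G → s i = 0) ∧ ∑ i, a i * s i = t

lemma InS.add {ι : Type} [Fintype ι] {a : ι → ℕ} {G : Finset ι} {t t' : ℕ}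
    (h : InS a G t) (h' : InS a G t') : InS a G (t + t') := by
  obtain ⟨s, hs1, hs2⟩ := h
  obtain ⟨s', hs1', hs2'⟩ := h'
  refine ⟨fun i => s i + s' i, ?_, ?_⟩
  · intro i hi
    simp [hs1 i hi, hs1' i hi]
  · rw [← hs2, ← hs2', ← Finset.sum_add_distrib]
    exact Finset.sum_congr rfl (fun i _ => by ring)

lemma InS.mul {ι : Type} [Fintype ι] [DecidableEq ι] {a : ι → ℕ} {G : Finset ι} {o : ι}
    (ho : o ∈ G) (n : ℕ) : InS a G (n * a o) := by
  refine ⟨fun i => if i = o then n else 0, ?_, ?_⟩
  · intro i hi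
    exact if_neg (by rintro rfl; exact hi ho)
  · simp only [mul_ite, mul_comm, mul_zero, sum_ite_eq', mem_univ, ↓reduceIte]

/-- The box lemma. -/
theorem box_lemma {ι : Type} [Fintype ι] [DecidableEq ι] (a : ι → ℕ) (ha : ∀ i, 0 < a i)
    (G : Finset ι) (o : ι) (ho : o ∈ G) (hgcd : G.gcd a = 1) (c : ι → ℕ) (M : ι → ι → ℕ)
    (hM1 : ∀ i ∈ G, i ≠ o → ∀ l, l ∉ G → M i l = 0)
    (hM2 : ∀ i ∈ G, i ≠ o → ∑ l, a l * M i l = a i * c i)
    (rank : ι → ℕ)
    (hrank : ∀ i ∈ G, i ≠ o → ∃ l, M i l ≠ 0 ∧ rank l < rank i) :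
    ∃ w : ι → ℕ, (∀ i, i ∉ G.erase o → w i = 0) ∧ (∀ i ∈ G.erase o, w i + 1 ≤ c i) ∧
      ∏ i ∈ G.erase o, (w i + 1) ≤ a o ∧
      ∀ T, ∑ i ∈ G.erase o, a i * (w i + 1) < T →
        ∃ y : ι → ℕ, (∀ i ∈ G, 1 ≤ y i) ∧ ∑ i ∈ G, a i * y i = T := by
  classical
  have hao := ha o
  obtain ⟨L, -, -, -, -, hrepL⟩ := brauer a G ⟨o, ho⟩ (fun i _ => ha i)
  rw [hgcd] at hrepL
  have hlarge : ∀ t, L.sum < t → InS a G t := by
    intro t ht
    obtain ⟨z, -, hz⟩ := hrepL t (one_dvd _) ht
    refine ⟨fun i => if i ∈ G then z i else 0, fun i hi => if_neg hi, ?_⟩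
    rw [← hz]
    simp only [mul_ite, mul_zero]
    rw [← Finset.sum_filter]
    congr 1
    ext i; simp only [subset_univ, filter_mem_eq_of_subset]
  -- the maximum `E` of the Apery set
  set P : ℕ → Prop := fun u => ∀ s, InS a G s → s + a o ≠ u with hP
  set E := Nat.findGreatest P (L.sum + a o) with hE
  have hP0 : P (a o - 1) := by
    intro s _ h
    omega
  have hPE : P E := Nat.findGreatest_spec (P := P) (m := a o - 1) (by omega) hP0
  have hEge : a o - 1 ≤ E := Nat.le_findGreatest (by omega) hP0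
  have hnP : ∀ t, E < t + a o → InS a G t := by
    intro t ht
    by_contra hcon
    have hPt : P (t + a o) := by
      intro s hs h
      have : s = t := by omega
      subst this
      exact hcon hs
    rcases Nat.lt_or_ge L.sum t with h | h
    · exact hcon (hlarge t h)
    · have := Nat.le_findGreatest (P := P) (n := L.sum + a o) (m := t + a o) (by omega) hPt
      omega
  have hES : InS a G E := hnP E (by omega)
  -- factorizations of `E`
  set F : Finset (ι → ℕ) := (Fintype.piFinset (fun _ : ι => range (E + 1))).filter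
    (fun w => (∀ i, i ∉ G → w i = 0) ∧ ∑ i, a i * w i = E) with hF
  have memF : ∀ w : ι → ℕ, (∀ i, i ∉ G → w i = 0) → ∑ i, a i * w i = E → w ∈ F := by
    intro w h1 h2
    rw [hF, Finset.mem_filter, Fintype.mem_piFinset]
    refine ⟨fun i => ?_, h1, h2⟩
    rw [Finset.mem_range]
    have h3 : a i * w i ≤ ∑ i, a i * w i :=
      Finset.single_le_sum (f := fun i => a i * w i) (fun _ _ => Nat.zero_le _) (mem_univ i)
    have h4 : w i ≤ a i * w i := Nat.le_mul_of_pos_left _ (ha i)
    omega
  have Fo : ∀ w ∈ F, w o = 0 := by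
    intro w hw
    rw [hF, Finset.mem_filter] at hw
    obtain ⟨-, h1, h2⟩ := hw
    by_contra hne
    apply hPE (E - a o)
    · refine ⟨fun i => if i = o then w i - 1 else w i, ?_, ?_⟩
      · intro i hi
        have := h1 i hi
        dsimp only
        split_ifs <;> omega
      · show ∑ i, a i * (if i = o then w i - 1 else w i) = E - a o
        have e1 : ∑ i, a i * (if i = o then w i - 1 else w i) + a o = ∑ i, a i * w i := by
          rw [← Finset.add_sum_erase _ _ (mem_univ o), ← Finset.add_sum_erase univ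
            (fun i => a i * w i) (mem_univ o)]
          have : ∑ i ∈ univ.erase o, a i * (if i = o then w i - 1 else w i) =
              ∑ i ∈ univ.erase o, a i * w i := by
            apply Finset.sum_congr rfl
            intro i hi
            rw [if_neg (Finset.ne_of_mem_erase hi)]
          rw [this, if_pos rfl]
          obtain ⟨n, hn⟩ := Nat.exists_eq_succ_of_ne_zero hne
          rw [hn]
          simp only [Nat.succ_eq_add_one, Nat.add_sub_cancel]
          ring
        omega
    · have : a o ≤ ∑ i, a i * w i := by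
        have h3 : a o * w o ≤ ∑ i, a i * w i :=
          Finset.single_le_sum (f := fun i => a i * w i) (fun _ _ => Nat.zero_le _) (mem_univ o)
        have h4 : a o ≤ a o * w o := Nat.le_mul_of_pos_right _ (Nat.pos_of_ne_zero hne)
        omega
      omega
  have hFne : F.Nonempty := by
    obtain ⟨s, h1, h2⟩ := hES
    exact ⟨s, memF s h1 h2⟩
  -- the functional
  obtain ⟨R, hR⟩ : ∃ R, ∀ i, rank i ≤ R :=
    ⟨∑ i, rank i, fun i => Finset.single_le_sum (fun _ _ => Nat.zero_le _) (mem_univ i)⟩
  obtain ⟨K, hK1, hK⟩ : ∃ K, 0 < K ∧ ∀ i, a i * c i < K := by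
    refine ⟨∑ i, a i * c i + 1, by omega, fun i => ?_⟩
    have : a i * c i ≤ ∑ i, a i * c i :=
      Finset.single_le_sum (f := fun i => a i * c i) (fun _ _ => Nat.zero_le _) (mem_univ i)
    omega
  set Φ : (ι → ℕ) → ℕ := fun w => ∑ i, w i * (a i * K ^ (R - rank i)) with hΦ
  obtain ⟨w1, hw1F, hw1max⟩ := Finset.exists_max_image F Φ hFne
  set F2 := F.filter (fun w => Φ w = Φ w1) with hF2
  obtain ⟨w, hwF2, hwmax⟩ := Finset.exists_max_image F2 (fun w => ∑ i, w i ^ 2)
    ⟨w1, Finset.mem_filter.2 ⟨hw1F, rfl⟩⟩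
  rw [hF2, Finset.mem_filter] at hwF2
  obtain ⟨hwF, hwΦ⟩ := hwF2
  have hmaxΦ : ∀ w' ∈ F, Φ w' ≤ Φ w := by
    intro w' hw'
    rw [hwΦ]
    exact hw1max w' hw'
  have hmax2 : ∀ w' ∈ F, Φ w' = Φ w → ∑ i, w' i ^ 2 ≤ ∑ i, w i ^ 2 := by
    intro w' hw' h
    exact hwmax w' (Finset.mem_filter.2 ⟨hw', h.trans hwΦ⟩)
  have hwo := Fo w hwF
  have hwF' := hwF
  rw [hF, Finset.mem_filter] at hwF'
  obtain ⟨-, hwG, hwE⟩ := hwF'
  have hsupp : ∀ i, i ∉ G.erase o → w i = 0 := by
    intro i hi
    by_cases h : i = o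
    · rw [h]; exact hwo
    · exact hwG i (fun hG => hi (Finset.mem_erase.2 ⟨h, hG⟩))
  -- exchange: replace `m ≤ w` by `m'`
  have hexch : ∀ m m' : ι → ℕ, (∀ i, m i ≤ w i) → (∀ i, i ∉ G → m' i = 0) →
      ∃ w' : ι → ℕ, (∀ i, w' i + m i = w i + m' i) ∧ (∀ i, i ∉ G → w' i = 0) := by
    intro m m' h1 h2
    refine ⟨fun i => w i - m i + m' i, fun i => ?_, fun i hi => ?_⟩
    · have := h1 i
      dsimp only
      omega
    · have := hwG i hi
      have := h2 i hi
      dsimp only
      omega
  have hsumexch : ∀ (w' m m' : ι → ℕ) (g : ι → ℕ), (∀ i, w' i + m i = w i + m' i) →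
      ∑ i, g i * w' i + ∑ i, g i * m i = ∑ i, g i * w i + ∑ i, g i * m' i := by
    intro w' m m' g h
    rw [← Finset.sum_add_distrib, ← Finset.sum_add_distrib]
    apply Finset.sum_congr rfl
    intro i _
    rw [← mul_add, ← mul_add, h i]
  have hΦexch : ∀ (w' m m' : ι → ℕ), (∀ i, w' i + m i = w i + m' i) →
      Φ w' + Φ m = Φ w + Φ m' := by
    intro w' m m' h
    simp only [hΦ]
    rw [← Finset.sum_add_distrib, ← Finset.sum_add_distrib]
    apply Finset.sum_congr rfl
    intro i _
    rw [← add_mul, ← add_mul, h i]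
  refine ⟨w, hsupp, ?_, ?_, ?_⟩
  · -- `w i < c i`
    intro i hi
    rw [Finset.mem_erase] at hi
    by_contra hcon
    have hci : c i ≤ w i := by omega
    obtain ⟨w', hw'1, hw'2⟩ := hexch (fun l => if l = i then c i else 0) (M i) (by
      intro l
      split_ifs with h
      · rw [h]; exact hci
      · exact Nat.zero_le _) (hM1 i hi.2 hi.1)
    have e1 := hsumexch w' _ _ a hw'1
    have e2 : ∑ l, a l * (if l = i then c i else 0) = a i * c i := by simp only [mul_ite, mul_zero, sum_ite_eq', mem_univ, ↓reduceIte]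
    rw [e2, hM2 i hi.2 hi.1, hwE] at e1
    have hw'F : w' ∈ F := memF w' hw'2 (by omega)
    have e3 := hΦexch w' _ _ hw'1
    have e4 : Φ (fun l => if l = i then c i else 0) = c i * (a i * K ^ (R - rank i)) := by
      simp only [hΦ, ite_mul, zero_mul, sum_ite_eq', mem_univ, ↓reduceIte]
    obtain ⟨l, hl1, hl2⟩ := hrank i hi.2 hi.1
    have e5 : K ^ (R - rank l) ≤ Φ (M i) := by
      have h1 : M i l * (a l * K ^ (R - rank l)) ≤ Φ (M i) := by
        simp only [hΦ]
        exact Finset.single_le_sum (f := fun l => M i l * (a l * K ^ (R - rank l)))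
          (fun _ _ => Nat.zero_le _) (mem_univ l)
      have h2 : K ^ (R - rank l) ≤ M i l * (a l * K ^ (R - rank l)) := by
        have h3 : 1 ≤ M i l * a l := Nat.mul_pos (Nat.pos_of_ne_zero hl1) (ha l)
        calc K ^ (R - rank l) = 1 * K ^ (R - rank l) := (one_mul _).symm
          _ ≤ (M i l * a l) * K ^ (R - rank l) := Nat.mul_le_mul_right _ h3
          _ = M i l * (a l * K ^ (R - rank l)) := by ring
      omega
    have e6 : c i * (a i * K ^ (R - rank i)) < K ^ (R - rank l) := by
      have h1 : R - rank l = (R - rank i) + (rank i - rank l) := by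
        have := hR i
        (clear * - hl2 this; omega)
      have h2 : K ≤ K ^ (rank i - rank l) := by
        calc K = K ^ 1 := (pow_one K).symm
          _ ≤ K ^ (rank i - rank l) := Nat.pow_le_pow_right hK1 (by omega)
      have h3 : 0 < K ^ (R - rank i) := Nat.pow_pos hK1
      calc c i * (a i * K ^ (R - rank i)) = (a i * c i) * K ^ (R - rank i) := by ring
        _ < K * K ^ (R - rank i) := Nat.mul_lt_mul_of_pos_right (hK i) h3
        _ ≤ K ^ (rank i - rank l) * K ^ (R - rank i) := Nat.mul_le_mul_right _ h2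
        _ = K ^ (R - rank l) := by rw [h1, pow_add, mul_comm]
    have e7 := hmaxΦ w' hw'F
    rw [e4] at e3
    omega
  · -- injectivity of the box modulo `a o`
    have hbox : ∏ i ∈ G.erase o, (w i + 1) = (Fintype.piFinset (fun i => range (w i + 1))).card := by
      rw [Fintype.card_piFinset]
      simp only [Finset.card_range]
      apply Finset.prod_subset (Finset.subset_univ _)
      intro i _ hi
      simp [hsupp i hi]
    rw [hbox]
    have hinj : Set.InjOn (fun m : ι → ℕ => (∑ i, a i * m i) % a o)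
        (Fintype.piFinset (fun i => range (w i + 1)) : Set (ι → ℕ)) := by
      -- one-sided statement
      have key : ∀ m m' : ι → ℕ, (∀ i, m i ≤ w i) → (∀ i, m' i ≤ w i) →
          (∑ i, a i * m i) % a o = (∑ i, a i * m' i) % a o →
          ¬ (∑ i, a i * m i < ∑ i, a i * m' i) := by
        intro m m' hm hm' hmod hlt
        obtain ⟨w', hw'1, hw'2⟩ := hexch m' m hm' (fun i hi => by
          have := hm i; have := hwG i hi; omega)
        have e1 := hsumexch w' _ _ a hw'1
        rw [hwE] at e1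
        obtain ⟨q, hq⟩ : a o ∣ (∑ i, a i * m' i) - (∑ i, a i * m i) :=
          (Nat.modEq_iff_dvd' hlt.le).1 hmod
        have hq1 : 1 ≤ q := by
          rcases Nat.eq_zero_or_pos q with h | h
          · rw [h, mul_zero] at hq; omega
          · exact h
        have h5 : InS a G (∑ i, a i * w' i) := ⟨w', hw'2, rfl⟩
        have h6 := h5.add (InS.mul (a := a) ho (q - 1))
        apply hPE _ h6
        have h7 : (q - 1) * a o + a o = a o * q := by
          obtain ⟨r, rfl⟩ := Nat.exists_eq_add_of_le hq1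
          simp only [add_tsub_cancel_left]; ring
        omega
      intro m hm m' hm' hmod
      simp only [Finset.mem_coe, Fintype.mem_piFinset, Finset.mem_range] at hm hm'
      have hm1 : ∀ i, m i ≤ w i := fun i => by have := hm i; omega
      have hm1' : ∀ i, m' i ≤ w i := fun i => by have := hm' i; omega
      have hdeg : ∑ i, a i * m i = ∑ i, a i * m' i := by
        apply le_antisymm
        · exact not_lt.1 (key m' m hm1' hm1 hmod.symm)
        · exact not_lt.1 (key m m' hm1 hm1' hmod)
      obtain ⟨u, hu1, hu2⟩ := hexch m m' hm1 (fun i hi => by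
        have := hm1' i; have := hwG i hi; omega)
      obtain ⟨u', hu'1, hu'2⟩ := hexch m' m hm1' (fun i hi => by
        have := hm1 i; have := hwG i hi; omega)
      have d1 := hsumexch u _ _ a hu1
      have d2 := hsumexch u' _ _ a hu'1
      have huF : u ∈ F := memF u hu2 (by omega)
      have hu'F : u' ∈ F := memF u' hu'2 (by omega)
      have p1 := hΦexch u _ _ hu1
      have p2 := hΦexch u' _ _ hu'1
      have q1 := hmaxΦ u huF
      have q2 := hmaxΦ u' hu'F
      have s1 := hmax2 u huF (by omega)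
      have s2 := hmax2 u' hu'F (by omega)
      -- parallelogram identity
      have hpar : (∑ i, (u i : ℤ) ^ 2) + ∑ i, (u' i : ℤ) ^ 2 =
          2 * ∑ i, (w i : ℤ) ^ 2 + 2 * ∑ i, ((m i : ℤ) - m' i) ^ 2 := by
        rw [Finset.mul_sum, Finset.mul_sum, ← Finset.sum_add_distrib, ← Finset.sum_add_distrib]
        apply Finset.sum_congr rfl
        intro i _
        have x1 : (u i : ℤ) = w i + m' i - m i := by have := hu1 i; omega
        have x2 : (u' i : ℤ) = w i + m i - m' i := by have := hu'1 i; omega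
        rw [x1, x2]; ring
      have s1' : (∑ i, (u i : ℤ) ^ 2) ≤ ∑ i, (w i : ℤ) ^ 2 := by exact_mod_cast s1
      have s2' : (∑ i, (u' i : ℤ) ^ 2) ≤ ∑ i, (w i : ℤ) ^ 2 := by exact_mod_cast s2
      have hz : ∑ i, ((m i : ℤ) - m' i) ^ 2 ≤ 0 := by linarith only [s1, s2, hpar]
      have hz' : ∀ i ∈ (univ : Finset ι), ((m i : ℤ) - m' i) ^ 2 = 0 :=
        (Finset.sum_eq_zero_iff_of_nonneg (fun i _ => sq_nonneg _)).1
          (le_antisymm hz (Finset.sum_nonneg (fun i _ => sq_nonneg _)))
      funext i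
      have := hz' i (mem_univ i)
      have := pow_eq_zero_iff (two_ne_zero) |>.1 this
      omega
    have := Finset.card_le_card_of_injOn (s := Fintype.piFinset (fun i => range (w i + 1)))
      (t := range (a o)) (fun m : ι → ℕ => (∑ i, a i * m i) % a o)
      (fun m _ => by simpa only [coe_range, Set.mem_Iio] using Nat.mod_lt _ hao) hinj
    rwa [Finset.card_range] at this
  · intro T hT
    have e1 : ∑ i ∈ G.erase o, a i * (w i + 1) = E + ∑ i ∈ G.erase o, a i := by
      rw [← hwE]
      have : ∑ i, a i * w i = ∑ i ∈ G.erase o, a i * w i := by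
        symm
        apply Finset.sum_subset (Finset.subset_univ _)
        intro i _ hi
        rw [hsupp i hi, mul_zero]
      rw [this, ← Finset.sum_add_distrib]
      apply Finset.sum_congr rfl
      intro i _; ring
    rw [e1] at hT
    have e2 : ∑ i ∈ G, a i = a o + ∑ i ∈ G.erase o, a i := (Finset.add_sum_erase G a ho).symm
    obtain ⟨s, hs1, hs2⟩ := hnP (T - ∑ i ∈ G, a i) (by omega)
    refine ⟨fun i => s i + 1, fun i _ => Nat.le_add_left 1 (s i), ?_⟩
    have e3 : ∑ i, a i * s i = ∑ i ∈ G, a i * s i := by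
      symm
      apply Finset.sum_subset (Finset.subset_univ _)
      intro i _ hi
      rw [hs1 i hi, mul_zero]
    have e4 : ∑ i ∈ G, a i * (s i + 1) = ∑ i ∈ G, a i * s i + ∑ i ∈ G, a i := by
      rw [← Finset.sum_add_distrib]
      apply Finset.sum_congr rfl
      intro i _; ring
    rw [e4, ← e3, hs2]
    omega

end Vale.Agent.P271
end
end

section

section

open Finset

namespace Vale.Agent.P271

/-- The bound for the Frobenius problem with pairwise coprime weights. -/
theorem coprime_bound {ι : Type} [Fintype ι] [DecidableEq ι] (a : ι → ℕ) (ha : ∀ i, 0 < a i)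
    (I : Finset ι) (hI : 2 ≤ I.card)
    (hcop : ∀ i ∈ I, ∀ j ∈ I, i ≠ j → Nat.Coprime (a i) (a j)) :
    ∃ o ∈ I, ∃ δ c : ι → ℕ, (∀ i ∈ I, 1 ≤ c i) ∧ (∀ i, 1 ≤ δ i) ∧
      (∀ i ∈ I, ∀ n, 1 ≤ n → n < c i → ¬ InS a (I.erase i) (n * a i)) ∧
      (∀ v, ∏ i ∈ (I.erase o).filter (fun i => v ≤ δ i), δ i ≤
        ∏ i ∈ I.filter (fun i => v ≤ a i * c i), a i) ∧
      ∀ T, ∑ i ∈ I.erase o, δ i < T →
        ∃ y : ι → ℕ, (∀ i ∈ I, 1 ≤ y i) ∧ ∑ i ∈ I, a i * y i = T := by
  classical
  -- the critical multiples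
  have hex : ∀ i ∈ I, ∃ n, 1 ≤ n ∧ InS a (I.erase i) (n * a i) := by
    intro i hi
    obtain ⟨j, hj, hij⟩ := Finset.exists_mem_ne (s := I) (by omega) i
    refine ⟨a j, ha j, ?_⟩
    rw [mul_comm]
    exact InS.mul (Finset.mem_erase.2 ⟨hij, hj⟩) (a i)
  have hc : ∀ i, ∃ c, i ∈ I → (1 ≤ c ∧ InS a (I.erase i) (c * a i) ∧
      ∀ n, 1 ≤ n → n < c → ¬ InS a (I.erase i) (n * a i)) := by
    intro i
    by_cases hi : i ∈ I
    · refine ⟨Nat.find (hex i hi), fun _ => ⟨(Nat.find_spec (hex i hi)).1,
        (Nat.find_spec (hex i hi)).2, ?_⟩⟩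
      intro n hn1 hn2 hn3
      exact Nat.find_min (hex i hi) hn2 ⟨hn1, hn3⟩
    · exact ⟨0, fun h => absurd h hi⟩
  choose c hc using hc
  have hM : ∀ i, ∃ M : ι → ℕ, i ∈ I → ((∀ l, l ∉ I.erase i → M l = 0) ∧
      ∑ l, a l * M l = c i * a i) := by
    intro i
    by_cases hi : i ∈ I
    · obtain ⟨s, hs⟩ := (hc i hi).2.1
      exact ⟨s, fun _ => hs⟩
    · exact ⟨fun _ => 0, fun h => absurd h hi⟩
  choose M hM using hM
  -- a minimal closed class
  set Cl : Finset (Finset ι) := (I.powerset).filter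
    (fun G => G.Nonempty ∧ ∀ i ∈ G, ∀ l, M i l ≠ 0 → l ∈ G) with hCl
  have hICl : I ∈ Cl := by
    rw [hCl, Finset.mem_filter]
    refine ⟨Finset.mem_powerset_self I, Finset.card_pos.1 (by omega), ?_⟩
    intro i hi l hl
    by_contra hlI
    exact hl ((hM i hi).1 l (fun h => hlI (Finset.mem_of_mem_erase h)))
  obtain ⟨G, hG, hGmin⟩ := Finset.exists_min_image Cl Finset.card ⟨I, hICl⟩
  rw [hCl, Finset.mem_filter, Finset.mem_powerset] at hG
  obtain ⟨hGI, hGne, hGcl⟩ := hG
  obtain ⟨o, hoG, homax⟩ := Finset.exists_max_image G (fun i => a i * c i) hGne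
  have hoI := hGI hoG
  -- two elements of `G`
  have hoM : ∃ l ∈ G, l ≠ o := by
    have h1 := (hM o hoI).2
    have h2 : ∑ l, a l * M o l ≠ 0 := by
      rw [h1]
      have := (hc o hoI).1
      have := ha o
      (clear hI hcop hex M hM Cl hCl hICl hGmin hGne hGcl homax h1; positivity)
    obtain ⟨l, -, hl⟩ := Finset.exists_ne_zero_of_sum_ne_zero h2
    have hl' : M o l ≠ 0 := fun h => hl (by rw [h, mul_zero])
    refine ⟨l, hGcl o hoG l hl', ?_⟩
    rintro rfl
    exact hl' ((hM l hoI).1 l (Finset.notMem_erase l I))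
  obtain ⟨l₀, hl₀, hl₀o⟩ := hoM
  have hgcd : G.gcd a = 1 := by
    have h1 := Finset.gcd_dvd (f := a) hoG
    have h2 := Finset.gcd_dvd (f := a) hl₀
    exact Nat.eq_one_of_dvd_coprimes (hcop l₀ (hGI hl₀) o hoI hl₀o) h2 h1
  -- ranks
  obtain ⟨R, hR0, hRs⟩ : ∃ R : ℕ → Finset ι, R 0 = {o} ∧
      ∀ n, R (n + 1) = R n ∪ G.filter (fun i => ∃ l ∈ R n, M i l ≠ 0) :=
    ⟨fun n => Nat.rec {o} (fun _ S => S ∪ G.filter (fun i => ∃ l ∈ S, M i l ≠ 0)) n, rfl,
      fun _ => rfl⟩
  have hall : ∀ i ∈ G, ∃ n, i ∈ R n := by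
    by_contra hcon
    push Not at hcon
    obtain ⟨i₁, hi₁, hi₁'⟩ := hcon
    set B := G.filter (fun i => ∀ n, i ∉ R n) with hB
    have hBCl : B ∈ Cl := by
      rw [hCl, Finset.mem_filter, Finset.mem_powerset]
      refine ⟨(Finset.filter_subset _ _).trans hGI, ⟨i₁, Finset.mem_filter.2 ⟨hi₁, hi₁'⟩⟩, ?_⟩
      intro i hi l hl
      rw [hB, Finset.mem_filter] at hi ⊢
      refine ⟨hGcl i hi.1 l hl, fun n hn => ?_⟩
      apply hi.2 (n + 1)
      rw [hRs]
      exact Finset.mem_union_right _ (Finset.mem_filter.2 ⟨hi.1, l, hn, hl⟩)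
    have h1 := hGmin B hBCl
    have h2 : B.card < G.card := by
      apply Finset.card_lt_card
      refine ⟨Finset.filter_subset _ _, fun h => ?_⟩
      have := (Finset.mem_filter.1 (h hoG)).2 0
      exact this (by rw [hR0]; exact Finset.mem_singleton_self o)
    omega
  have hrank : ∃ rank : ι → ℕ, ∀ i ∈ G, i ≠ o → ∃ l, M i l ≠ 0 ∧ rank l < rank i := by
    refine ⟨fun i => if h : ∃ n, i ∈ R n then Nat.find h else 0, ?_⟩
    intro i hi hio
    have h := hall i hi
    have hspec := Nat.find_spec h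
    have hne : Nat.find h ≠ 0 := by
      intro h0
      rw [h0, hR0, Finset.mem_singleton] at hspec
      exact hio hspec
    obtain ⟨n, hn⟩ := Nat.exists_eq_succ_of_ne_zero hne
    rw [hn, Nat.succ_eq_add_one, hRs, Finset.mem_union] at hspec
    rcases hspec with hspec | hspec
    · exact absurd hspec (Nat.find_min h (by omega))
    · obtain ⟨l, hl1, hl2⟩ := (Finset.mem_filter.1 hspec).2
      refine ⟨l, hl2, ?_⟩
      have hl : ∃ n, l ∈ R n := ⟨n, hl1⟩
      show (if h : ∃ n, l ∈ R n then Nat.find h else 0) < (if h : ∃ n, i ∈ R n then Nat.find h else 0)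
      rw [dif_pos hl, dif_pos h, hn]
      have := Nat.find_min' hl hl1
      omega
  obtain ⟨rank, hrank⟩ := hrank
  obtain ⟨w, hw1, hw2, hw3, hw4⟩ := box_lemma a ha G o hoG hgcd c M
    (fun i hi _ l hl => by
      by_contra h
      exact hl (hGcl i hi l h))
    (fun i hi _ => by rw [(hM i (hGI hi)).2, mul_comm]) rank hrank
  refine ⟨o, hoI, fun i => a i * (w i + 1), c, fun i hi => (hc i hi).1,
    fun i => Nat.mul_pos (ha i) (Nat.succ_pos _), fun i hi => (hc i hi).2.2, ?_, ?_⟩
  · intro v
    have hle : ∀ i ∈ I.erase o, a i * (w i + 1) ≤ a i * c i := by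
      intro i hi
      apply Nat.mul_le_mul_left
      rw [Finset.mem_erase] at hi
      by_cases hiG : i ∈ G
      · exact hw2 i (Finset.mem_erase.2 ⟨hi.1, hiG⟩)
      · rw [hw1 i (fun h => hiG (Finset.mem_of_mem_erase h))]
        exact (hc i hi.2).1
    rw [Finset.prod_mul_distrib]
    by_cases hv : ∃ i ∈ G.erase o, v ≤ a i * (w i + 1)
    · obtain ⟨i, hi, hvi⟩ := hv
      have hov : v ≤ a o * c o := by
        rw [Finset.mem_erase] at hi
        exact hvi.trans ((hle i (Finset.mem_erase.2 ⟨hi.1, hGI hi.2⟩)).trans (homax i hi.2))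
      have h1 : ∏ i ∈ (I.erase o).filter (fun i => v ≤ a i * (w i + 1)), (w i + 1) ≤ a o := by
        refine le_trans ?_ hw3
        have e : ∏ i ∈ G.erase o, (w i + 1) = ∏ i ∈ I.erase o, (w i + 1) := by
          apply Finset.prod_subset (Finset.erase_subset_erase o hGI)
          intro i _ hi
          simp [hw1 i hi]
        rw [e]
        apply Finset.prod_le_prod_of_subset_of_one_le' (Finset.filter_subset _ _)
        intro i _ _
        exact Nat.succ_pos _
      have h2 : a o * ∏ i ∈ (I.erase o).filter (fun i => v ≤ a i * (w i + 1)), a i ≤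
          ∏ i ∈ I.filter (fun i => v ≤ a i * c i), a i := by
        rw [← Finset.prod_insert (s := (I.erase o).filter (fun i => v ≤ a i * (w i + 1)))
          (f := a) (by simp only [mem_filter, mem_erase, ne_eq, not_true_eq_false, false_and, not_false_eq_true])]
        apply Finset.prod_le_prod_of_subset_of_one_le'
        · intro i hi
          rw [Finset.mem_insert, Finset.mem_filter] at hi
          rw [Finset.mem_filter]
          rcases hi with rfl | ⟨hi, hvi⟩
          · exact ⟨hoI, hov⟩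
          · exact ⟨Finset.mem_of_mem_erase hi, hvi.trans (hle i hi)⟩
        · intro i _ _
          exact ha i
      calc _ ≤ (∏ i ∈ (I.erase o).filter (fun i => v ≤ a i * (w i + 1)), a i) * a o :=
            Nat.mul_le_mul_left _ h1
        _ ≤ _ := by rw [mul_comm]; exact h2
    · push Not at hv
      have h1 : ∏ i ∈ (I.erase o).filter (fun i => v ≤ a i * (w i + 1)), (w i + 1) = 1 := by
        apply Finset.prod_eq_one
        intro i hi
        rw [Finset.mem_filter] at hi
        have : i ∉ G.erase o := fun h => absurd hi.2 (not_le.2 (hv i h))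
        simp [hw1 i this]
      rw [h1, mul_one]
      apply Finset.prod_le_prod_of_subset_of_one_le'
      · intro i hi
        rw [Finset.mem_filter] at hi ⊢
        exact ⟨Finset.mem_of_mem_erase hi.1, hi.2.trans (hle i hi.1)⟩
      · intro i _ _
        exact ha i
  · intro T hT
    -- split off `I \ G`
    have hsub : G.erase o ⊆ I.erase o := Finset.erase_subset_erase o hGI
    have e0 : I.erase o \ G.erase o = I \ G := by
      ext i
      simp only [Finset.mem_sdiff, Finset.mem_erase]
      constructor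
      · rintro ⟨⟨h1, h2⟩, h3⟩
        exact ⟨h2, fun h => h3 ⟨h1, h⟩⟩
      · rintro ⟨h1, h2⟩
        refine ⟨⟨?_, h1⟩, fun h => h2 h.2⟩
        rintro rfl
        exact h2 hoG
    have e1 : ∑ i ∈ I.erase o, a i * (w i + 1) =
        ∑ i ∈ G.erase o, a i * (w i + 1) + ∑ i ∈ I \ G, a i := by
      rw [← Finset.sum_sdiff hsub, e0, add_comm]
      congr 1
      apply Finset.sum_congr rfl
      intro i hi
      rw [Finset.mem_sdiff] at hi
      rw [hw1 i (fun h => hi.2 (Finset.mem_of_mem_erase h))]
      simp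
    rw [e1] at hT
    obtain ⟨y, hy1, hy2⟩ := hw4 (T - ∑ i ∈ I \ G, a i) (by omega)
    refine ⟨fun i => if i ∈ G then y i else 1, ?_, ?_⟩
    · intro i _
      dsimp only
      split_ifs with h
      · exact hy1 i h
      · exact le_rfl
    · rw [← Finset.sum_sdiff hGI]
      have e2 : ∑ i ∈ I \ G, a i * (if i ∈ G then y i else 1) = ∑ i ∈ I \ G, a i := by
        apply Finset.sum_congr rfl
        intro i hi
        rw [if_neg (Finset.mem_sdiff.1 hi).2, mul_one]
      have e3 : ∑ i ∈ G, a i * (if i ∈ G then y i else 1) = ∑ i ∈ G, a i * y i := by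
        apply Finset.sum_congr rfl
        intro i hi
        rw [if_pos hi]
      rw [e2, e3, hy2]
      omega

end Vale.Agent.P271
end
end

section

section

namespace Vale.Agent.P271

/-- A Kannan-Lovasz type bound for three weights, from one primitive relation
`α a₀ = β a₁ + γ a₂`. -/
lemma kl_three (a0 a1 a2 α β γ T : ℤ) (h1 : 0 < a1) (h2 : 0 < a2)
    (hα : 0 < α) (hβ : 0 ≤ β) (hγ : 0 ≤ γ) (hrel : α * a0 = β * a1 + γ * a2)
    (hprim : ∃ x y t : ℤ, x * α + y * β + t * γ = 1)
    (hgcd : ∃ x y t : ℤ, x * a0 + y * a1 + t * a2 = 1)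
    (hT : α * (α * a0) + a1 * a2 < α * T) :
    ∃ z0 z1 z2 : ℤ, 0 < z0 ∧ 0 < z1 ∧ 0 < z2 ∧ a0 * z0 + a1 * z1 + a2 * z2 = T := by
  obtain ⟨x, y, t, hxyt⟩ := hprim
  obtain ⟨x', y', t', hx'⟩ := hgcd
  -- the vector `w` of the relation lattice with cross product one
  set w0 : ℤ := y * a2 - t * a1 with hw0
  obtain ⟨w1, hw1⟩ : ∃ w1, α * w1 = a2 - β * w0 := by
    refine ⟨x * a2 + t * a0, ?_⟩
    rw [hw0]
    linear_combination a2 * hxyt + t * hrel
  obtain ⟨w2, hw2⟩ : ∃ w2, α * w2 = -a1 - γ * w0 := by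
    refine ⟨-(x * a1) - y * a0, ?_⟩
    rw [hw0]
    linear_combination (-a1) * hxyt - y * hrel
  have hw : a0 * w0 + a1 * w1 + a2 * w2 = 0 := by
    have : α * (a0 * w0 + a1 * w1 + a2 * w2) = 0 := by
      linear_combination w0 * hrel + a1 * hw1 + a2 * hw2
    rcases mul_eq_zero.1 this with h | h
    · omega
    · exact h
  -- start from an integral solution
  set s0 := T * x'
  set s1 := T * y'
  set s2 := T * t'
  have hs : a0 * s0 + a1 * s1 + a2 * s2 = T := by
    have : a0 * (T * x') + a1 * (T * y') + a2 * (T * t') = T * (x' * a0 + y' * a1 + t' * a2) := by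
      ring
    rw [this, hx', mul_one]
  set A0 := α * s1 + β * s0 with hA0
  -- choose `k` with `α β < A0 + k a2 ≤ α β + a2`
  obtain ⟨k, hk1, hk2⟩ : ∃ k : ℤ, α * β < A0 + k * a2 ∧ A0 + k * a2 ≤ α * β + a2 := by
    refine ⟨(α * β - A0) / a2 + 1, ?_, ?_⟩
    · have := Int.lt_ediv_add_one_mul_self (α * β - A0) h2
      linarith only [this]
    · have := Int.ediv_mul_le (α * β - A0) h2.ne'
      linarith only [this]
  set p0 := s0 + k * w0 with hp0
  set p1 := s1 + k * w1 with hp1
  set p2 := s2 + k * w2 with hp2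
  have hp : a0 * p0 + a1 * p1 + a2 * p2 = T := by
    rw [hp0, hp1, hp2]
    linear_combination hs + k * hw
  have hpA : α * p1 + β * p0 = A0 + k * a2 := by
    rw [hp0, hp1, hA0]
    linear_combination k * hw1
  -- choose `l` with `0 < p0 + l α ≤ α`
  obtain ⟨l, hl1, hl2⟩ : ∃ l : ℤ, 0 < p0 + l * α ∧ p0 + l * α ≤ α := by
    refine ⟨(-p0) / α + 1, ?_, ?_⟩
    · have := Int.lt_ediv_add_one_mul_self (-p0) hα
      linarith only [this]
    · have := Int.ediv_mul_le (-p0) hα.ne'
      linarith only [this]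
  refine ⟨p0 + l * α, p1 - l * β, p2 - l * γ, hl1, ?_, ?_, ?_⟩
  · -- `α z1 = A - β z0 > 0`
    have e : α * (p1 - l * β) = (A0 + k * a2) - β * (p0 + l * α) := by
      rw [← hpA]; ring
    have : 0 < α * (p1 - l * β) := by
      rw [e]
      have : β * (p0 + l * α) ≤ β * α := mul_le_mul_of_nonneg_left hl2 hβ
      linarith only [hk1, this]
    exact pos_of_mul_pos_of_pos_left' this hα
  · have hB : a2 * (α * p2 + γ * p0) = α * T - a1 * (A0 + k * a2) := by
      rw [← hpA, ← hp]
      linear_combination (-p0) * hrel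
    have e : a2 * (α * (p2 - l * γ)) = a2 * (α * p2 + γ * p0) - a2 * (γ * (p0 + l * α)) := by
      ring
    have h3 : a2 * (γ * (p0 + l * α)) ≤ a2 * (γ * α) :=
      mul_le_mul_of_nonneg_left (mul_le_mul_of_nonneg_left hl2 hγ) h2.le
    have h4 : a1 * (A0 + k * a2) ≤ a1 * (α * β + a2) := mul_le_mul_of_nonneg_left hk2 h1.le
    have h5 : α * (α * a0) = α * (β * a1) + α * (γ * a2) := by rw [hrel]; ring
    have : 0 < a2 * (α * (p2 - l * γ)) := by
      rw [e, hB]
      linarith
    have h6 := pos_of_mul_pos_of_pos_left' this h2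
    exact pos_of_mul_pos_of_pos_left' h6 hα
  · linear_combination hp + l * hrel
where
  pos_of_mul_pos_of_pos_left' {a b : ℤ} (h : 0 < a * b) (ha : 0 < a) : 0 < b :=
    (mul_pos_iff_of_pos_left ha).1 h

/-- Relations of small degree are multiples of the given primitive one. -/
lemma parallel_of_small (a0 a1 a2 α β γ w0 w1 w2 e : ℤ) (h0 : 0 < a0) (h1 : 0 < a1) (h2 : 0 < a2)
    (hα : 0 < α) (hβ : 0 ≤ β) (hγ : 0 ≤ γ) (hrel : α * a0 = β * a1 + γ * a2)
    (hprim : ∃ x y t : ℤ, x * α + y * β + t * γ = 1)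
    (hgcd : ∃ x y t : ℤ, x * a0 + y * a1 + t * a2 = 1)
    (hw : a0 * w0 + a1 * w1 + a2 * w2 = 0)
    (he1 : a1 * w1 ≤ e) (he2 : -(a2 * w2) ≤ e) (he1' : -(a1 * w1) ≤ e) (he2' : a2 * w2 ≤ e)
    (he : α * e < a1 * a2) :
    ∃ l : ℤ, w0 = l * α ∧ w1 = -(l * β) ∧ w2 = -(l * γ) := by
  obtain ⟨x', y', t', hx'⟩ := hgcd
  -- the cross product is a multiple of `(a0, a1, a2)`
  set X := α * w1 + β * w0 with hX
  set Y := -(α * w2 + γ * w0) with hY
  set Z := γ * w1 - β * w2 with hZ
  set κ := x' * Z + y' * Y + t' * X with hκ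
  have e1 : X * a1 = Y * a2 := by
    rw [hX, hY]; linear_combination α * hw - w0 * hrel
  have hαpos := hα
  have e2 : X * a0 = Z * a2 := by
    have : α * (X * a0) = α * (Z * a2) := by
      rw [hX, hZ]
      linear_combination (α * w1 + β * w0) * hrel + (β * α) * hw - (β * w0) * hrel
    exact mul_left_cancel₀ hα.ne' this
  have e3 : Y * a0 = Z * a1 := by
    have : a2 * (Y * a0) = a2 * (Z * a1) := by
      linear_combination a1 * e2 - a0 * e1
    exact mul_left_cancel₀ h2.ne' this
  have hX' : X = κ * a2 := by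
    rw [hκ]
    linear_combination (-X) * hx' + x' * e2 + y' * e1
  have hY' : Y = κ * a1 := by
    rw [hκ]
    linear_combination (-Y) * hx' + x' * e3 - t' * e1
  have q1 : α * w2 = -Y - γ * w0 := by rw [hY]; ring
  have q2 : α * w1 = X - β * w0 := by rw [hX]; ring
  have r1 := mul_le_mul_of_nonneg_left he1 hα.le
  have r2 := mul_le_mul_of_nonneg_left he2 hα.le
  have r1' := mul_le_mul_of_nonneg_left he1' hα.le
  have r2' := mul_le_mul_of_nonneg_left he2' hα.le
  have hκ0 : κ = 0 := by
    rcases lt_trichotomy κ 0 with hneg | h | hpos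
    · exfalso
      have hk : κ ≤ -1 := by omega
      have g1 : κ * a1 ≤ (-1) * a1 := mul_le_mul_of_nonneg_right hk h1.le
      have g2 : κ * a2 ≤ (-1) * a2 := mul_le_mul_of_nonneg_right hk h2.le
      rcases le_or_gt w0 0 with hw0 | hw0
      · have g3 : γ * w0 ≤ 0 := mul_nonpos_of_nonneg_of_nonpos hγ hw0
        have h3 : a1 ≤ α * w2 := by rw [q1, hY']; linarith only [g1, g3]
        have h4 := mul_le_mul_of_nonneg_left h3 h2.le
        linarith only [he, r2', h4]
      · have g3 : 0 ≤ β * w0 := mul_nonneg hβ hw0.le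
        have h3 : α * w1 ≤ -a2 := by rw [q2, hX']; linarith only [g2, g3]
        have h4 := mul_le_mul_of_nonneg_left h3 h1.le
        linarith only [he, r1', h4]
    · exact h
    · exfalso
      have hk : 1 ≤ κ := by omega
      have g1 : 1 * a1 ≤ κ * a1 := mul_le_mul_of_nonneg_right hk h1.le
      have g2 : 1 * a2 ≤ κ * a2 := mul_le_mul_of_nonneg_right hk h2.le
      rcases le_or_gt 0 w0 with hw0 | hw0
      · have g3 : 0 ≤ γ * w0 := mul_nonneg hγ hw0
        have h3 : α * w2 ≤ -a1 := by rw [q1, hY']; linarith only [g1, g3]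
        have h4 := mul_le_mul_of_nonneg_left h3 h2.le
        linarith only [he, r2, h4]
      · have g3 : β * w0 ≤ 0 := mul_nonpos_of_nonneg_of_nonpos hβ hw0.le
        have h3 : a2 ≤ α * w1 := by rw [q2, hX']; linarith only [g2, g3]
        have h4 := mul_le_mul_of_nonneg_left h3 h1.le
        linarith only [he, r1, h4]
  rw [hκ0, zero_mul] at hX' hY'
  obtain ⟨x, y, t, hxyt⟩ := hprim
  have f1 : α * w1 = -(β * w0) := by linarith only [hX']
  have f2 : α * w2 = -(γ * w0) := by linarith only [hY']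
  -- `γ w1 = β w2`
  have f3 : γ * w1 = β * w2 := by
    have : α * (γ * w1) = α * (β * w2) := by linear_combination γ * f1 - β * f2
    exact mul_left_cancel₀ hα.ne' this
  refine ⟨x * w0 - y * w1 - t * w2, ?_, ?_, ?_⟩
  · linear_combination (-w0) * hxyt + y * f1 + t * f2
  · linear_combination (-w1) * hxyt + x * f1 + t * f3
  · linear_combination (-w2) * hxyt + x * f2 - y * f3

end Vale.Agent.P271
end
end

section

section

open MvPolynomial

namespace Vale.Agent.P271

namespace SmoothWCI

variable {N c : ℕ} (W : SmoothWCI N c)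

/-- Free action: an integer dividing the weights of all nonzero coordinates of a point is `1`. -/
lemma dvd_support_eq_one {z : Fin (N + 1) → ℂ} (hz : z ≠ 0) (hf : ∀ j, eval z (W.f j) = 0)
    {k : ℕ} (hk : ∀ i, z i ≠ 0 → k ∣ W.a i) : k = 1 := by
  obtain ⟨i0, hi0⟩ : ∃ i, z i ≠ 0 := by
    by_contra h
    push Not at h
    exact hz (funext h)
  have hk0 : k ≠ 0 := by
    rintro rfl
    have := hk i0 hi0
    rw [Nat.zero_dvd] at this
    have := W.a_pos i0
    omega
  have hprim := Complex.isPrimitiveRoot_exp k hk0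
  have h1 := W.free z hz hf (Complex.exp (2 * Real.pi * Complex.I / k)) (Complex.exp_ne_zero _) ?_
  · rw [h1] at hprim
    exact hprim.unique IsPrimitiveRoot.one
  · intro i
    by_cases hi : z i = 0
    · simp only [hi, mul_zero]
    · obtain ⟨q, hq⟩ := hk i hi
      rw [hq, pow_mul, hprim.pow_eq_one]
      simp

/-- Restriction of a polynomial to a coordinate subspace. -/
noncomputable def restr (T : Finset (Fin (N + 1))) :
    MvPolynomial (Fin (N + 1)) ℂ →ₐ[ℂ] MvPolynomial {i // i ∈ T} ℂ :=
  aeval (fun i => if h : i ∈ T then X ⟨i, h⟩ else 0)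

/-- Extension of a point by zero. -/
def extend (T : Finset (Fin (N + 1))) (x : {i // i ∈ T} → ℂ) : Fin (N + 1) → ℂ :=
  fun i => if h : i ∈ T then x ⟨i, h⟩ else 0

lemma eval_restr (T : Finset (Fin (N + 1))) (x : {i // i ∈ T} → ℂ)
    (p : MvPolynomial (Fin (N + 1)) ℂ) : eval x (restr T p) = eval (extend T x) p := by
  have : ((aeval x).comp (restr T) : MvPolynomial (Fin (N + 1)) ℂ →ₐ[ℂ] ℂ)
      = aeval (extend T x) := by
    ext i
    simp only [restr, AlgHom.comp_apply, aeval_X, extend]
    split_ifs with h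
    · simp
    · simp
  have h2 := DFunLike.congr_fun this p
  simpa only [AlgHom.coe_comp, aeval_eq_eval, Function.comp_apply] using h2

lemma eval_zero_of_homogeneous (j : Fin c) : eval (0 : Fin (N + 1) → ℂ) (W.f j) = 0 := by
  have h := W.homogeneous j
  rw [MvPolynomial.eval_zero, MvPolynomial.constantCoeff_eq]
  by_contra hne
  have h1 := h hne
  have h2 := W.d_pos j
  simp only [map_zero] at h1
  omega

/-- The basic counting inequality: Let `T` be a set of variables whose weights are all divisible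
by `k ≥ 2`, let `D` be a set of equations and `b` a family of `r` further polynomials vanishing at
the origin. If on the coordinate subspace of `T` the common zeros of the `f_j`, `j ∈ D`, and of
the `b`'s are zeros of all `f_j`, then `|T| ≤ |D| + r`. -/
theorem card_le_card_add {k : ℕ} (hk : 2 ≤ k) (T : Finset (Fin (N + 1)))
    (hT : ∀ i ∈ T, k ∣ W.a i) (D : Finset (Fin c)) {r : ℕ}
    (b : Fin r → MvPolynomial (Fin (N + 1)) ℂ) (hb : ∀ s, eval 0 (b s) = 0)
    (h : ∀ x : Fin (N + 1) → ℂ, (∀ i, i ∉ T → x i = 0) → (∀ j ∈ D, eval x (W.f j) = 0) →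
      (∀ s, eval x (b s) = 0) → ∀ j, eval x (W.f j) = 0) :
    T.card ≤ D.card + r := by
  classical
  have h1 := card_le_card_of_unique_zero (ι := {i // i ∈ T}) (κ := {j // j ∈ D} ⊕ Fin r)
    (Sum.elim (fun j => restr T (W.f j)) (fun s => restr T (b s))) ?_ ?_
  · simpa only [ge_iff_le, Fintype.card_coe, Fintype.card_sum, Fintype.card_fin] using h1
  · have h0 : extend T (0 : {i // i ∈ T} → ℂ) = 0 := by
      funext i
      simp only [extend]
      split_ifs <;> rfl
    rintro (j | s)
    · simp only [Sum.elim_inl]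
      rw [eval_restr, h0]
      exact W.eval_zero_of_homogeneous j
    · simp only [Sum.elim_inr]
      rw [eval_restr, h0]
      exact hb s
  · intro x hx
    set y := extend T x with hy
    have hyT : ∀ i, i ∉ T → y i = 0 := by
      intro i hi
      simp [hy, extend, hi]
    have hyf : ∀ j, eval y (W.f j) = 0 := by
      apply h y hyT
      · intro j hj
        have := hx (Sum.inl ⟨j, hj⟩)
        simp only [Sum.elim_inl] at this
        rwa [eval_restr] at this
      · intro s
        have := hx (Sum.inr s)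
        simp only [Sum.elim_inr] at this
        rwa [eval_restr] at this
    have hy0 : y = 0 := by
      by_contra hne
      have := W.dvd_support_eq_one hne hyf (k := k) (fun i hi => hT i (by
        by_contra hiT
        exact hi (hyT i hiT)))
      omega
    funext i
    have := congrFun hy0 i
    simpa [hy, extend, i.2] using this

/-- If `k` divides the weights in `T` but not `d_j`, then `f_j` vanishes on the coordinate
subspace of `T`. -/
lemma eval_eq_zero_of_not_dvd {k : ℕ} (T : Finset (Fin (N + 1))) (hT : ∀ i ∈ T, k ∣ W.a i)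
    {j : Fin c} (hj : ¬ k ∣ W.d j) {x : Fin (N + 1) → ℂ} (hx : ∀ i, i ∉ T → x i = 0) :
    eval x (W.f j) = 0 := by
  rw [MvPolynomial.eval_eq]
  apply Finset.sum_eq_zero
  intro m hm
  rw [mem_support_iff] at hm
  have hw := W.homogeneous j hm
  suffices h : ∃ i ∈ m.support, x i = 0 by
    obtain ⟨i, hi, hxi⟩ := h
    rw [Finset.prod_eq_zero hi, mul_zero]
    rw [hxi, zero_pow (Finsupp.mem_support_iff.1 hi)]
  by_contra hcon
  push Not at hcon
  apply hj
  rw [← hw, Finsupp.weight_apply, Finsupp.sum]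
  apply Finset.dvd_sum
  intro i hi
  have hiT : i ∈ T := by
    by_contra h
    exact hcon i hi (hx i h)
  simpa only [smul_eq_mul] using Dvd.dvd.mul_left (hT i hiT) (m i)

end SmoothWCI

/-- Divisibility of products from counting prime powers. -/
lemma prod_dvd_prod_of_card {ι κ : Type} (s : Finset ι) (t : Finset κ) (a : ι → ℕ) (d : κ → ℕ)
    (ha : ∀ i ∈ s, a i ≠ 0) (hd : ∀ j ∈ t, d j ≠ 0)
    (h : ∀ p e : ℕ, p.Prime → 1 ≤ e → (s.filter (fun i => p ^ e ∣ a i)).card ≤
      (t.filter (fun j => p ^ e ∣ d j)).card) : ∏ i ∈ s, a i ∣ ∏ j ∈ t, d j := by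
  classical
  have hA : ∏ i ∈ s, a i ≠ 0 := Finset.prod_ne_zero_iff.2 ha
  have hD : ∏ j ∈ t, d j ≠ 0 := Finset.prod_ne_zero_iff.2 hd
  rw [← Nat.factorization_prime_le_iff_dvd hA hD]
  intro p hp
  rw [Nat.factorization_prod ha, Nat.factorization_prod hd]
  obtain ⟨B, hB1, hB2⟩ : ∃ B, (∀ i ∈ s, a i < p ^ B) ∧ (∀ j ∈ t, d j < p ^ B) := by
    refine ⟨∑ i ∈ s, a i + ∑ j ∈ t, d j, ?_, ?_⟩
    · intro i hi
      refine lt_of_lt_of_le (Nat.lt_pow_self hp.one_lt) (Nat.pow_le_pow_right hp.pos ?_)
      exact (Finset.single_le_sum (fun _ _ => Nat.zero_le _) hi).trans (Nat.le_add_right _ _)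
    · intro i hi
      refine lt_of_lt_of_le (Nat.lt_pow_self hp.one_lt) (Nat.pow_le_pow_right hp.pos ?_)
      exact (Finset.single_le_sum (fun _ _ => Nat.zero_le _) hi).trans (Nat.le_add_left _ _)
  have e1 : (∑ i ∈ s, (a i).factorization) p =
      ∑ e ∈ Finset.Ico 1 B, (s.filter (fun i => p ^ e ∣ a i)).card := by
    rw [Finsupp.finset_sum_apply]
    rw [Finset.sum_congr rfl (fun i hi => Nat.factorization_eq_card_pow_dvd_of_lt hp
      (Nat.pos_of_ne_zero (ha i hi)) (hB1 i hi))]
    simp_rw [Finset.card_filter]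
    exact Finset.sum_comm
  have e2 : (∑ j ∈ t, (d j).factorization) p =
      ∑ e ∈ Finset.Ico 1 B, (t.filter (fun j => p ^ e ∣ d j)).card := by
    rw [Finsupp.finset_sum_apply]
    rw [Finset.sum_congr rfl (fun i hi => Nat.factorization_eq_card_pow_dvd_of_lt hp
      (Nat.pos_of_ne_zero (hd i hi)) (hB2 i hi))]
    simp_rw [Finset.card_filter]
    exact Finset.sum_comm
  rw [e1, e2]
  apply Finset.sum_le_sum
  intro e he
  exact h p e hp (Finset.mem_Ico.1 he).1

end Vale.Agent.P271
end
end

section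

section

open MvPolynomial

namespace Vale.Agent.P271

namespace SmoothWCI

variable {N c : ℕ} (W : SmoothWCI N c)

/-- The support of a point. -/
noncomputable def supp (z : Fin (N + 1) → ℂ) : Finset (Fin (N + 1)) := by
  classical exact Finset.univ.filter (fun i => z i ≠ 0)

lemma mem_supp {z : Fin (N + 1) → ℂ} {i : Fin (N + 1)} : i ∈ supp z ↔ z i ≠ 0 := by
  simp [supp]

lemma supp_nonempty {z : Fin (N + 1) → ℂ} (hz : z ≠ 0) : (supp z).Nonempty := by
  by_contra h
  rw [Finset.not_nonempty_iff_eq_empty] at h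
  apply hz
  funext i
  by_contra hi
  have : i ∈ supp z := mem_supp.2 hi
  rw [h] at this
  simp at this

lemma gcd_supp {z : Fin (N + 1) → ℂ} (hz : z ≠ 0) (hf : ∀ j, eval z (W.f j) = 0) :
    (supp z).gcd W.a = 1 :=
  W.dvd_support_eq_one hz hf (fun _ hi => Finset.gcd_dvd (mem_supp.2 hi))

/-- A monomial supported in the support of `z` does not vanish at `z`. -/
lemma exists_section_of_rep {z : Fin (N + 1) → ℂ} {e : ℤ} (s : Fin (N + 1) → ℕ)
    (hs : ∀ i, i ∉ supp z → s i = 0) (he : (∑ i, (W.a i : ℤ) * s i) = e) :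
    ∃ g : MvPolynomial (Fin (N + 1)) ℂ,
      IsWeightedHomogeneous (fun i => (W.a i : ℤ)) g e ∧ eval z g ≠ 0 := by
  refine ⟨monomial (Finsupp.equivFunOnFinite.symm s) 1, ?_, ?_⟩
  · apply isWeightedHomogeneous_monomial
    rw [Finsupp.weight_apply, Finsupp.sum_fintype]
    · rw [← he]
      apply Finset.sum_congr rfl
      intro i _
      simp [mul_comm]
    · intro i; simp
  · rw [eval_monomial, one_mul, Finsupp.prod_fintype]
    · rw [Finset.prod_ne_zero_iff]
      intro i _
      by_cases hi : i ∈ supp z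
      · exact pow_ne_zero _ (mem_supp.1 hi)
      · have := hs i hi
        simp [this]
    · intro i; simp

lemma list_sum_sub_one (L : List ℕ) (hpos : ∀ x ∈ L, 1 ≤ x) :
    (((L.map (fun x => x - 1)).sum : ℕ) : ℤ) = (L.sum : ℤ) - (L.length : ℤ) := by
  induction L with
  | nil => simp only [List.map_nil, List.sum_nil, CharP.cast_eq_zero, List.length_nil, sub_self]
  | cons x L ih =>
    have hx := hpos x (by simp)
    have := ih (fun y hy => hpos y (by simp [hy]))
    rw [List.map_cons, List.sum_cons, List.sum_cons, List.length_cons]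
    push_cast [Nat.cast_sub hx]
    push_cast at this
    rw [this]
    ring

/-- Main reduction: the numerical input for Fujita freeness at a point `z`. Suppose there is a
list `L` such that every integer greater than `L.sum` is a combination `∑ a_i z_i` over the
support of `z` with all `z_i ≥ 1`, with `|L| + 1 ≥ |supp z|`, and
`∑ (x - 1) over L + ∑ (a_i - 1) over the complement ≤ ∑ (d_j - 1)`. -/
lemma exists_rep_of_list (hn : c ≤ N) {z : Fin (N + 1) → ℂ} (L : List ℕ)
    (hpos : ∀ x ∈ L, 1 ≤ x)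
    (hlen : L.length + 1 = (supp z).card)
    (hrep : ∀ t, L.sum < t →
      ∃ y : Fin (N + 1) → ℕ, (∀ i ∈ supp z, 1 ≤ y i) ∧ ∑ i ∈ supp z, W.a i * y i = t)
    (hsum : (L.map (fun x => x - 1)).sum + ∑ i ∈ (supp z)ᶜ, (W.a i - 1) ≤ ∑ j, (W.d j - 1))
    {k m : ℕ} (hk : 1 ≤ k) (hm : N - c + 1 ≤ m) :
    ∃ s : Fin (N + 1) → ℕ, (∀ i, i ∉ supp z → s i = 0) ∧
      (∑ i, (W.a i : ℤ) * s i) = W.canonicalDegree + m * k := by
  classical
  set I := supp z with hI
  have h1 := list_sum_sub_one L hpos
  have h2 : ((∑ i ∈ Iᶜ, (W.a i - 1) : ℕ) : ℤ) = ∑ i ∈ Iᶜ, (W.a i : ℤ) - (Iᶜ.card : ℤ) := by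
    push_cast
    rw [Finset.card_eq_sum_ones]
    push_cast
    rw [← Finset.sum_sub_distrib]
    apply Finset.sum_congr rfl
    intro i _
    rw [Nat.cast_sub (W.a_pos i)]; simp
  have h3 : ((∑ j, (W.d j - 1) : ℕ) : ℤ) = ∑ j, (W.d j : ℤ) - (c : ℤ) := by
    push_cast
    have : (c : ℤ) = ∑ j : Fin c, (1 : ℤ) := by simp only [Finset.sum_const, Finset.card_univ, Fintype.card_fin, Int.nsmul_eq_mul, mul_one]
    rw [this, ← Finset.sum_sub_distrib]
    apply Finset.sum_congr rfl
    intro i _
    rw [Nat.cast_sub (W.d_pos i)]; simp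
  have h4 : ∑ i, (W.a i : ℤ) = ∑ i ∈ I, (W.a i : ℤ) + ∑ i ∈ Iᶜ, (W.a i : ℤ) :=
    (Finset.sum_add_sum_compl I _).symm
  have h5 : I.card + Iᶜ.card = N + 1 := by
    rw [Finset.card_add_card_compl]; simp
  have hmk : (N : ℤ) - c + 1 ≤ (m : ℤ) * k := by
    have : N - c + 1 ≤ m * k := hm.trans (Nat.le_mul_of_pos_right m hk)
    have h' : ((N - c + 1 : ℕ) : ℤ) ≤ ((m * k : ℕ) : ℤ) := by exact_mod_cast this
    push_cast [Nat.cast_sub hn] at h'
    linarith only [h']
  have hsum' : (((L.map (fun x => x - 1)).sum : ℕ) : ℤ) + ((∑ i ∈ Iᶜ, (W.a i - 1) : ℕ) : ℤ)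
      ≤ ((∑ j, (W.d j - 1) : ℕ) : ℤ) := by exact_mod_cast hsum
  rw [h1, h2, h3] at hsum'
  have hlen' : (L.length : ℤ) + 1 = (I.card : ℤ) := by exact_mod_cast hlen
  have h5' : (I.card : ℤ) + (Iᶜ.card : ℤ) = N + 1 := by exact_mod_cast h5
  set e : ℤ := W.canonicalDegree + m * k with he
  have hcd : W.canonicalDegree = ∑ j, (W.d j : ℤ) - ∑ i, (W.a i : ℤ) := rfl
  have hbig : (L.sum : ℤ) < e + ∑ i ∈ I, (W.a i : ℤ) := by
    rw [he, hcd, h4]
    linarith only [hlen, h5, hmk, hsum']
  have hnonneg : 0 ≤ e + ∑ i ∈ I, (W.a i : ℤ) := by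
    have : (0 : ℤ) ≤ (L.sum : ℤ) := Int.natCast_nonneg _
    linarith only [hlen, h4, h5, hmk, hsum', hcd]
  obtain ⟨t, ht⟩ := Int.eq_ofNat_of_zero_le hnonneg
  obtain ⟨y, hy1, hy2⟩ := hrep t (by
    have : (L.sum : ℤ) < (t : ℤ) := by rw [← ht]; exact hbig
    exact_mod_cast this)
  refine ⟨fun i => if i ∈ I then y i - 1 else 0, ?_, ?_⟩
  · intro i hi
    show (if i ∈ I then y i - 1 else 0) = 0
    rw [if_neg (by rwa [hI])]
  · have e1 : ∑ i, (W.a i : ℤ) * ((if i ∈ I then y i - 1 else 0 : ℕ) : ℤ)
        = ∑ i ∈ I, ((W.a i : ℤ) * y i - W.a i) := by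
      rw [← Finset.sum_add_sum_compl I]
      have z1 : ∑ i ∈ Iᶜ, (W.a i : ℤ) * ((if i ∈ I then y i - 1 else 0 : ℕ) : ℤ) = 0 := by
        apply Finset.sum_eq_zero
        intro i hi
        rw [if_neg (Finset.mem_compl.1 hi)]; simp
      rw [z1, add_zero]
      apply Finset.sum_congr rfl
      intro i hi
      rw [if_pos hi, Nat.cast_sub (hy1 i hi)]
      push_cast
      ring
    rw [e1, Finset.sum_sub_distrib]
    have e2 : ∑ i ∈ I, (W.a i : ℤ) * y i = t := by
      have : ((∑ i ∈ I, W.a i * y i : ℕ) : ℤ) = (t : ℤ) := by rw [hy2]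
      push_cast at this
      exact this
    rw [e2]
    have : (t : ℤ) = e + ∑ i ∈ I, (W.a i : ℤ) := ht.symm
    rw [this]; ring

end SmoothWCI

end Vale.Agent.P271
end
end

section

section

open MvPolynomial

namespace Vale.Agent.P271

lemma list_filter_prod (L : List ℕ) (v : ℕ) :
    (L.filter (fun x => v ≤ x)).prod = (L.map (fun x => if v ≤ x then x else 1)).prod := by
  induction L with
  | nil => simp
  | cons x L ih =>
    rw [List.filter_cons]
    by_cases h : v ≤ x
    · simp only [h, decide_true, ↓reduceIte, List.prod_cons, ih, List.map_cons]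
    · simp only [h, decide_false, Bool.false_eq_true, ↓reduceIte, ih, List.map_cons, List.prod_cons, one_mul]

/-- Passage from threshold inequalities for products to the inequality of sums. -/
lemma sum_le_of_thresholds {N c : ℕ} (a : Fin (N + 1) → ℕ) (ha : ∀ i, 0 < a i) (d : Fin c → ℕ)
    (hd : ∀ j, 0 < d j) (I : Finset (Fin (N + 1))) (L : List ℕ) (hpos : ∀ x ∈ L, 1 ≤ x)
    (h : ∀ v, 2 ≤ v → (L.filter (fun x => v ≤ x)).prod *
      ∏ i ∈ I.filter (fun i => v ≤ a i), a i ≤ ∏ j with v ≤ d j, d j) :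
    (L.map (fun x => x - 1)).sum + ∑ i ∈ I, (a i - 1) ≤ ∑ j, (d j - 1) := by
  classical
  have key := sum_sub_one_le_of_prod_le (κ := Fin c) (ι := Fin L.length ⊕ {i // i ∈ I}) d
    (Sum.elim (fun l => L.get l) (fun i => a i)) hd ?_ ?_
  · rw [Fintype.sum_sum_type] at key
    simp only [Sum.elim_inl, Sum.elim_inr] at key
    have e1 : ∑ l : Fin L.length, (L.get l - 1) = (L.map (fun x => x - 1)).sum := by
      rw [← Fin.sum_univ_fun_getElem]
      rfl
    have e2 : ∑ i : {i // i ∈ I}, (a i - 1) = ∑ i ∈ I, (a i - 1) := by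
      rw [← Finset.sum_coe_sort I (fun i => a i - 1)]
    rw [e1, e2] at key
    exact key
  · rintro (l | i)
    · exact hpos _ (List.get_mem L l)
    · exact ha _
  · intro v hv
    have := h v hv
    refine le_trans (le_of_eq ?_) this
    rw [Finset.prod_filter, Fintype.prod_sum_type]
    simp only [Sum.elim_inl, Sum.elim_inr]
    congr 1
    · rw [list_filter_prod, ← Fin.prod_univ_fun_getElem]
      rfl
    · rw [Finset.prod_filter, ← Finset.prod_coe_sort I (fun i => if v ≤ a i then a i else 1)]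
      rfl

end Vale.Agent.P271
end
end

section

section

open MvPolynomial

namespace Vale.Agent.P271

lemma prod_dvd_prod_mul_of_card {ι κ : Type} (s : Finset ι) (t : Finset κ) (a : ι → ℕ) (d : κ → ℕ)
    (q : ℕ) (ha : ∀ i ∈ s, a i ≠ 0) (hd : ∀ j ∈ t, d j ≠ 0) (hq : q ≠ 0)
    (h : ∀ p e : ℕ, p.Prime → 1 ≤ e → (s.filter (fun i => p ^ e ∣ a i)).card ≤
      (t.filter (fun j => p ^ e ∣ d j)).card + (if p ^ e ∣ q then 1 else 0)) :
    ∏ i ∈ s, a i ∣ (∏ j ∈ t, d j) * q := by
  classical
  have := prod_dvd_prod_of_card s (Finset.insertNone t) a (fun o : Option κ => o.elim q d) ha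
    (by
      intro j hj
      cases j with
      | none => exact hq
      | some j => exact hd j (by simpa using hj)) (by
      intro p e hp he
      refine (h p e hp he).trans (le_of_eq ?_)
      rw [Finset.card_filter, Finset.card_filter, Finset.sum_insertNone, add_comm]
      rfl)
  rw [Finset.prod_insertNone] at this
  rw [mul_comm]
  exact this

namespace SmoothWCI

variable {N c : ℕ} (W : SmoothWCI N c)

/-- A weighted homogeneous polynomial of degree `q` vanishes on the coordinate subspace of the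
variables with weights divisible by `k`, when `k` does not divide `q`. -/
lemma eval_homog_eq_zero_of_not_dvd {k q : ℕ} (T : Finset (Fin (N + 1))) (hT : ∀ i ∈ T, k ∣ W.a i)
    (hk : ¬ k ∣ q) {b : MvPolynomial (Fin (N + 1)) ℂ} (hb : IsWeightedHomogeneous W.a b q)
    {x : Fin (N + 1) → ℂ} (hx : ∀ i, i ∉ T → x i = 0) : eval x b = 0 := by
  rw [MvPolynomial.eval_eq]
  apply Finset.sum_eq_zero
  intro m hm
  rw [mem_support_iff] at hm
  have hw := hb hm
  suffices h : ∃ i ∈ m.support, x i = 0 by
    obtain ⟨i, hi, hxi⟩ := h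
    rw [Finset.prod_eq_zero hi, mul_zero]
    rw [hxi, zero_pow (Finsupp.mem_support_iff.1 hi)]
  by_contra hcon
  push Not at hcon
  apply hk
  rw [← hw, Finsupp.weight_apply, Finsupp.sum]
  apply Finset.dvd_sum
  intro i hi
  have hiT : i ∈ T := by
    by_contra h
    exact hcon i hi (hx i h)
  simpa only [smul_eq_mul] using Dvd.dvd.mul_left (hT i hiT) (m i)

/-- The product form of the counting inequality, with one auxiliary polynomial `b` of degree
`q`. -/
theorem prod_le (v : ℕ) (U : Finset (Fin (N + 1))) (b : MvPolynomial (Fin (N + 1)) ℂ) (q : ℕ)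
    (hq : 0 < q) (hb : IsWeightedHomogeneous W.a b q)
    (h : ∀ k, 2 ≤ k → ∀ x : Fin (N + 1) → ℂ, (∀ i, ¬ (i ∈ U ∧ k ∣ W.a i) → x i = 0) →
      eval x b = 0 → ∀ j, W.d j < v → eval x (W.f j) = 0) :
    ∏ i ∈ U, W.a i ≤ (∏ j with v ≤ W.d j, W.d j) * q := by
  classical
  apply Nat.le_of_dvd
  · exact Nat.mul_pos (Finset.prod_pos (fun j _ => W.d_pos j)) hq
  apply prod_dvd_prod_mul_of_card _ _ _ _ _ (fun i _ => (W.a_pos i).ne')
    (fun j _ => (W.d_pos j).ne') hq.ne'
  intro p e hp he
  set k := p ^ e with hk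
  have hk2 : 2 ≤ k := (hp.two_le).trans (Nat.le_self_pow (by omega) p)
  have hb0 : eval (0 : Fin (N + 1) → ℂ) b = 0 := by
    rw [MvPolynomial.eval_zero, MvPolynomial.constantCoeff_eq]
    by_contra hne
    have h1 := hb hne
    simp at h1
    omega
  -- with `D = {j : v ≤ d j, k ∣ d j}`
  have main : ∀ (r : ℕ) (b' : Fin r → MvPolynomial (Fin (N + 1)) ℂ), (∀ s, eval 0 (b' s) = 0) →
      (∀ x : Fin (N + 1) → ℂ, (∀ i, ¬ (i ∈ U ∧ k ∣ W.a i) → x i = 0) →
        (∀ s, eval x (b' s) = 0) → eval x b = 0) →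
      (U.filter (fun i => k ∣ W.a i)).card ≤
        ((Finset.univ.filter (fun j => v ≤ W.d j)).filter (fun j => k ∣ W.d j)).card + r := by
    intro r b' hb'0 hb'
    apply W.card_le_card_add hk2 _ (fun i hi => (Finset.mem_filter.1 hi).2) _ b' hb'0
    intro x hx hD hs j
    have hx' : ∀ i, ¬ (i ∈ U ∧ k ∣ W.a i) → x i = 0 := by
      intro i hi
      exact hx i (fun h => hi (Finset.mem_filter.1 h))
    by_cases hkj : k ∣ W.d j
    · by_cases hvj : v ≤ W.d j
      · exact hD j (Finset.mem_filter.2 ⟨Finset.mem_filter.2 ⟨Finset.mem_univ _, hvj⟩, hkj⟩)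
      · exact h k hk2 x hx' (hb' x hx' hs) j (not_le.1 hvj)
    · exact W.eval_eq_zero_of_not_dvd _ (fun i hi => (Finset.mem_filter.1 hi).2) hkj hx
  by_cases hkq : k ∣ q
  · rw [if_pos hkq]
    exact main 1 (fun _ => b) (fun _ => hb0) (fun x _ hs => hs 0)
  · rw [if_neg hkq]
    apply main 0 (fun s => s.elim0) (fun s => s.elim0)
    intro x hx _
    apply W.eval_homog_eq_zero_of_not_dvd (U.filter (fun i => k ∣ W.a i))
      (fun i hi => (Finset.mem_filter.1 hi).2) hkq hb
    intro i hi
    exact hx i (fun h => hi (Finset.mem_filter.2 h))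

/-- The counting inequality without auxiliary polynomial. -/
theorem prod_le' (v : ℕ) (U : Finset (Fin (N + 1)))
    (h : ∀ k, 2 ≤ k → ∀ x : Fin (N + 1) → ℂ, (∀ i, ¬ (i ∈ U ∧ k ∣ W.a i) → x i = 0) →
      ∀ j, W.d j < v → eval x (W.f j) = 0) :
    ∏ i ∈ U, W.a i ≤ ∏ j with v ≤ W.d j, W.d j := by
  have := W.prod_le v U 0 1 one_pos (isWeightedHomogeneous_zero _ _ _)
    (fun k hk x hx _ => h k hk x hx)
  simpa only [ge_iff_le, mul_one] using this

/-- Transfer of vanishing from a point `z` to a point `x`, for an equation of degree less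
than `v`. Here `x` is supported in the union of the support `I` of `z` and the variables of
weight at least `v`. -/
lemma eval_transfer {z x : Fin (N + 1) → ℂ} (j : Fin c) (v : ℕ) (hj : W.d j < v)
    (hz : eval z (W.f j) = 0)
    (hx : ∀ i, i ∉ supp z → W.a i < v → x i = 0)
    (h : ∀ s s' : Fin (N + 1) → ℕ, (∀ i, i ∉ supp z → s i = 0) → (∀ i, i ∉ supp z → s' i = 0) →
      ∑ i, W.a i * s i = W.d j → ∑ i, W.a i * s' i = W.d j →
      (∏ i, x i ^ s i) * (∏ i, z i ^ s' i) = (∏ i, x i ^ s' i) * (∏ i, z i ^ s i)) :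
    eval x (W.f j) = 0 := by
  classical
  rw [MvPolynomial.eval_eq'] at hz ⊢
  have hdeg : ∀ m ∈ (W.f j).support, ∑ i, W.a i * m i = W.d j := by
    intro m hm
    rw [mem_support_iff] at hm
    have hw := W.homogeneous j hm
    rw [Finsupp.weight_apply, Finsupp.sum_fintype _ _ (fun i => by simp)] at hw
    rw [← hw]
    apply Finset.sum_congr rfl
    intro i _
    simp [mul_comm]
  -- monomials not supported in `supp z` vanish at both points
  have hoff : ∀ m ∈ (W.f j).support, (∃ i, i ∉ supp z ∧ m i ≠ 0) →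
      (∏ i, x i ^ m i) = 0 ∧ (∏ i, z i ^ m i) = 0 := by
    rintro m hm ⟨i, hi, hmi⟩
    have h1 : W.a i ≤ W.d j := by
      rw [← hdeg m hm]
      have h3 : W.a i * m i ≤ ∑ i, W.a i * m i :=
        Finset.single_le_sum (f := fun i => W.a i * m i) (fun _ _ => Nat.zero_le _)
          (Finset.mem_univ i)
      exact (Nat.le_mul_of_pos_right _ (Nat.pos_of_ne_zero hmi)).trans h3
    constructor
    · apply Finset.prod_eq_zero (Finset.mem_univ i)
      rw [hx i hi (by omega), zero_pow hmi]
    · apply Finset.prod_eq_zero (Finset.mem_univ i)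
      have : z i = 0 := by
        by_contra hne
        exact hi (mem_supp.2 hne)
      rw [this, zero_pow hmi]
  by_cases hex : ∃ m' ∈ (W.f j).support, ∀ i, i ∉ supp z → m' i = 0
  · obtain ⟨m', hm', hm'z⟩ := hex
    have hzm' : (∏ i, z i ^ m' i) ≠ 0 := by
      rw [Finset.prod_ne_zero_iff]
      intro i _
      by_cases hi : i ∈ supp z
      · exact pow_ne_zero _ (mem_supp.1 hi)
      · simp [hm'z i hi]
    have key : ∀ m ∈ (W.f j).support,
        (∏ i, x i ^ m i) * (∏ i, z i ^ m' i) = (∏ i, x i ^ m' i) * (∏ i, z i ^ m i) := by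
      intro m hm
      by_cases hmz : ∀ i, i ∉ supp z → m i = 0
      · exact h m m' hmz hm'z (hdeg m hm) (hdeg m' hm')
      · push Not at hmz
        obtain ⟨h1, h2⟩ := hoff m hm hmz
        rw [h1, h2]; ring
    have : (∑ m ∈ (W.f j).support, coeff m (W.f j) * ∏ i, x i ^ m i) * (∏ i, z i ^ m' i) = 0 := by
      rw [Finset.sum_mul]
      have e : ∀ m ∈ (W.f j).support,
          coeff m (W.f j) * (∏ i, x i ^ m i) * (∏ i, z i ^ m' i) =
          (∏ i, x i ^ m' i) * (coeff m (W.f j) * ∏ i, z i ^ m i) := by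
        intro m hm
        rw [mul_assoc, key m hm]; ring
      rw [Finset.sum_congr rfl e, ← Finset.mul_sum, hz, mul_zero]
    exact (mul_eq_zero.1 this).resolve_right hzm'
  · push Not at hex
    apply Finset.sum_eq_zero
    intro m hm
    obtain ⟨i, hi, hmi⟩ := hex m hm
    rw [(hoff m hm ⟨i, hi, hmi⟩).1, mul_zero]

/-- Main reduction in function form. -/
lemma exists_rep_of_fun (hn : c ≤ N) {z : Fin (N + 1) → ℂ} (o : Fin (N + 1)) (ho : o ∈ supp z)
    (δ : Fin (N + 1) → ℕ) (hpos : ∀ i ∈ (supp z).erase o, 1 ≤ δ i)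
    (hrep : ∀ t, ∑ i ∈ (supp z).erase o, δ i < t →
      ∃ y : Fin (N + 1) → ℕ, (∀ i ∈ supp z, 1 ≤ y i) ∧ ∑ i ∈ supp z, W.a i * y i = t)
    (hthr : ∀ v, 2 ≤ v → (∏ i ∈ ((supp z).erase o).filter (fun i => v ≤ δ i), δ i) *
      ∏ i ∈ (supp z)ᶜ.filter (fun i => v ≤ W.a i), W.a i ≤ ∏ j with v ≤ W.d j, W.d j)
    {k m : ℕ} (hk : 1 ≤ k) (hm : N - c + 1 ≤ m) :
    ∃ s : Fin (N + 1) → ℕ, (∀ i, i ∉ supp z → s i = 0) ∧
      (∑ i, (W.a i : ℤ) * s i) = W.canonicalDegree + m * k := by
  classical
  have hL : ∀ (g : ℕ → ℕ), ((((supp z).erase o).toList.map δ).map g).sum =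
      ∑ i ∈ (supp z).erase o, g (δ i) := by
    intro g
    rw [List.map_map, Finset.sum_map_toList]
    rfl
  apply W.exists_rep_of_list hn (((supp z).erase o).toList.map δ) ?_ ?_ ?_ ?_ hk hm
  · intro x hx
    rw [List.mem_map] at hx
    obtain ⟨i, hi, rfl⟩ := hx
    exact hpos i (Finset.mem_toList.1 hi)
  · rw [List.length_map, Finset.length_toList, Finset.card_erase_of_mem ho]
    have := Finset.card_pos.2 ⟨o, ho⟩
    omega
  · intro t ht
    apply hrep
    have := hL id
    rw [List.map_id] at this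
    rw [this] at ht
    exact ht
  · apply sum_le_of_thresholds W.a W.a_pos W.d W.d_pos
    · intro x hx
      rw [List.mem_map] at hx
      obtain ⟨i, hi, rfl⟩ := hx
      exact hpos i (Finset.mem_toList.1 hi)
    · intro v hv
      refine le_trans (le_of_eq ?_) (hthr v hv)
      congr 1
      rw [list_filter_prod, List.map_map, Finset.prod_filter, Finset.prod_map_toList]
      rfl

end SmoothWCI

end Vale.Agent.P271
end
end

section

section

open MvPolynomial

namespace Vale.Agent.P271

namespace SmoothWCI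

variable {N c : ℕ} (W : SmoothWCI N c)

/-- The case of a point whose support is a single variable. -/
lemma exists_rep_of_card_one (hn : c ≤ N) {z : Fin (N + 1) → ℂ} (hz : z ≠ 0)
    (hf : ∀ j, eval z (W.f j) = 0) (hcard : (supp z).card = 1)
    {k m : ℕ} (hk : 1 ≤ k) (hm : N - c + 1 ≤ m) :
    ∃ s : Fin (N + 1) → ℕ, (∀ i, i ∉ supp z → s i = 0) ∧
      (∑ i, (W.a i : ℤ) * s i) = W.canonicalDegree + m * k := by
  classical
  obtain ⟨o, ho⟩ := Finset.card_eq_one.1 hcard
  have hao : W.a o = 1 := by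
    have := W.gcd_supp hz hf
    rw [ho, Finset.gcd_singleton] at this
    simpa using this
  have hoz : o ∈ supp z := by rw [ho]; exact Finset.mem_singleton_self o
  have herase : (supp z).erase o = ∅ := by rw [ho]; simp
  apply W.exists_rep_of_fun hn o hoz (fun _ => 1) (fun _ _ => le_rfl) ?_ ?_ hk hm
  · intro t ht
    rw [herase, Finset.sum_empty] at ht
    refine ⟨fun _ => t, fun _ _ => ht, ?_⟩
    rw [ho, Finset.sum_singleton, hao, one_mul]
  · intro v _
    rw [herase]
    simp only [Finset.filter_empty, Finset.prod_empty, one_mul]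
    apply W.prod_le'
    intro k' _ x hx j hj
    apply W.eval_transfer j v hj (hf j)
    · intro i _ hv
      apply hx
      rintro ⟨hi, -⟩
      have := (Finset.mem_filter.1 hi).2
      omega
    · intro s s' hs hs' h1 h2
      have : s = s' := by
        have e : ∀ t : Fin (N + 1) → ℕ, (∀ i, i ∉ supp z → t i = 0) →
            ∑ i, W.a i * t i = t o := by
          intro t ht
          rw [Finset.sum_eq_single o]
          · rw [hao, one_mul]
          · intro b _ hb
            rw [ht b (by rw [ho]; simpa using hb), mul_zero]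
          · intro h; exact absurd (Finset.mem_univ o) h
        rw [e s hs] at h1
        rw [e s' hs'] at h2
        funext i
        by_cases hi : i = o
        · rw [hi]; omega
        · rw [hs i (by rw [ho]; simpa using hi), hs' i (by rw [ho]; simpa using hi)]
      rw [this]

/-- The case of pairwise coprime weights on the support. -/
lemma exists_rep_of_coprime (hn : c ≤ N) {z : Fin (N + 1) → ℂ} (hz : z ≠ 0)
    (hf : ∀ j, eval z (W.f j) = 0)
    (hcop : ∀ i ∈ supp z, ∀ i' ∈ supp z, i ≠ i' → Nat.Coprime (W.a i) (W.a i'))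
    {k m : ℕ} (hk : 1 ≤ k) (hm : N - c + 1 ≤ m) :
    ∃ s : Fin (N + 1) → ℕ, (∀ i, i ∉ supp z → s i = 0) ∧
      (∑ i, (W.a i : ℤ) * s i) = W.canonicalDegree + m * k := by
  classical
  have hpos := Finset.card_pos.2 (supp_nonempty hz)
  rcases Nat.lt_or_ge (supp z).card 2 with hlt | hge
  · exact W.exists_rep_of_card_one hn hz hf (by omega) hk hm
  obtain ⟨o, ho, δ, cr, hc1, hδ1, hmin, hthr, hrep⟩ := coprime_bound W.a W.a_pos (supp z) hge hcop
  apply W.exists_rep_of_fun hn o ho δ (fun i _ => hδ1 i) hrep ?_ hk hm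
  intro v _
  set I := supp z with hI
  have hdisj : Disjoint (I.filter (fun i => v ≤ W.a i * cr i)) (Iᶜ.filter (fun i => v ≤ W.a i)) := by
    rw [Finset.disjoint_left]
    intro i h1 h2
    exact (Finset.mem_compl.1 (Finset.mem_filter.1 h2).1) (Finset.mem_filter.1 h1).1
  calc (∏ i ∈ (I.erase o).filter (fun i => v ≤ δ i), δ i) *
        ∏ i ∈ Iᶜ.filter (fun i => v ≤ W.a i), W.a i
      ≤ (∏ i ∈ I.filter (fun i => v ≤ W.a i * cr i), W.a i) *
        ∏ i ∈ Iᶜ.filter (fun i => v ≤ W.a i), W.a i := Nat.mul_le_mul_right _ (hthr v)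
    _ = ∏ i ∈ (I.filter (fun i => v ≤ W.a i * cr i)) ∪ (Iᶜ.filter (fun i => v ≤ W.a i)), W.a i :=
        (Finset.prod_union hdisj).symm
    _ ≤ ∏ j with v ≤ W.d j, W.d j := ?_
  apply W.prod_le'
  intro k' hk' x hx j hj
  apply W.eval_transfer j v hj (hf j)
  · intro i hi hv
    apply hx
    rintro ⟨hi', -⟩
    rw [Finset.mem_union, Finset.mem_filter, Finset.mem_filter] at hi'
    rcases hi' with h | h
    · exact hi h.1
    · omega
  · -- relations of degree less than `v`
    have key : ∀ s s' : Fin (N + 1) → ℕ, (∀ i, i ∉ I → s i = 0) → (∀ i, i ∉ I → s' i = 0) →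
        ∑ i, W.a i * s i = W.d j → ∑ i, W.a i * s' i = W.d j → s ≠ s' →
        (∏ i, x i ^ s i) = 0 := by
      intro s s' hs hs' h1 h2 hne
      by_contra hprod
      replace hprod := Finset.prod_ne_zero_iff.1 hprod
      have hsx : ∀ i, s i ≠ 0 → x i ≠ 0 := by
        intro i hsi hxi
        exact hprod i (Finset.mem_univ i) (by rw [hxi, zero_pow hsi])
      have hsI : ∀ i, s i ≠ 0 → i ∈ I := by
        intro i hsi
        by_contra h
        exact hsi (hs i h)
      have hsU : ∀ i, s i ≠ 0 → v ≤ W.a i * cr i ∧ k' ∣ W.a i := by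
        intro i hsi
        have h3 : i ∈ (I.filter (fun i => v ≤ W.a i * cr i)) ∪ (Iᶜ.filter (fun i => v ≤ W.a i)) ∧
            k' ∣ W.a i := by
          by_contra h
          exact hsx i hsi (hx i h)
        refine ⟨?_, h3.2⟩
        rcases Finset.mem_union.1 h3.1 with h | h
        · exact (Finset.mem_filter.1 h).2
        · exact absurd (hsI i hsi) (Finset.mem_compl.1 (Finset.mem_filter.1 h).1)
      obtain ⟨i, hi⟩ : ∃ i, s i ≠ 0 := by
        by_contra h
        push Not at h
        have : ∑ i, W.a i * s i = 0 := Finset.sum_eq_zero (fun i _ => by rw [h i, mul_zero])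
        have := W.d_pos j
        omega
      have honly : ∀ l, l ≠ i → s l = 0 := by
        intro l hl
        by_contra hsl
        have hc := hcop l (hsI l hsl) i (hsI i hi) hl
        have := Nat.eq_one_of_dvd_coprimes hc (hsU l hsl).2 (hsU i hi).2
        omega
      have e1 : ∑ l, W.a l * s l = W.a i * s i := by
        rw [Finset.sum_eq_single i]
        · intro b _ hb; rw [honly b hb, mul_zero]
        · intro h; exact absurd (Finset.mem_univ i) h
      have e2 : ∑ l, W.a l * s' l = W.a i * s' i + ∑ l, W.a l * (if l = i then 0 else s' l) := by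
        rw [← Finset.add_sum_erase _ _ (Finset.mem_univ i), ← Finset.add_sum_erase Finset.univ
          (fun l => W.a l * (if l = i then 0 else s' l)) (Finset.mem_univ i)]
        rw [if_pos rfl, mul_zero, zero_add]
        congr 1
        apply Finset.sum_congr rfl
        intro l hl
        rw [if_neg (Finset.ne_of_mem_erase hl)]
      have hle : s' i ≤ s i := by
        have : W.a i * s' i ≤ W.a i * s i := by omega
        exact Nat.le_of_mul_le_mul_left this (W.a_pos i)
      have hS : InS W.a (I.erase i) ((s i - s' i) * W.a i) := by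
        refine ⟨fun l => if l = i then 0 else s' l, ?_, ?_⟩
        · intro l hl
          by_cases hli : l = i
          · exact if_pos hli
          · have : l ∉ I := fun h => hl (Finset.mem_erase.2 ⟨hli, h⟩)
            show (if l = i then 0 else s' l) = 0
            rw [if_neg hli, hs' l this]
        · show ∑ l, W.a l * (if l = i then 0 else s' l) = (s i - s' i) * W.a i
          have : (s i - s' i) * W.a i = W.a i * s i - W.a i * s' i := by
            rw [Nat.sub_mul, mul_comm, mul_comm (s' i)]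
          rw [this]
          omega
      rcases Nat.eq_zero_or_pos (s i - s' i) with h0 | h0
      · -- then `s = s'`
        apply hne
        have hz0 : ∑ l, W.a l * (if l = i then 0 else s' l) = 0 := by
          have : s i = s' i := by omega
          rw [this] at e1
          omega
        funext l
        by_cases hli : l = i
        · rw [hli]; omega
        · rw [honly l hli]
          have := (Finset.sum_eq_zero_iff.1 hz0) l (Finset.mem_univ l)
          rw [if_neg hli] at this
          rcases Nat.mul_eq_zero.1 this with h | h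
          · have := W.a_pos l; omega
          · exact h.symm
      · apply hmin i (hsI i hi) (s i - s' i) h0 ?_ hS
        have h5 := (hsU i hi).1
        have h6 : W.a i * (s i - s' i) ≤ W.a i * s i := Nat.mul_le_mul_left _ (Nat.sub_le _ _)
        have h7 : W.a i * (s i - s' i) < W.a i * cr i := by omega
        exact lt_of_mul_lt_mul_left h7 (Nat.zero_le _)
    intro s s' hs hs' h1 h2
    by_cases hne : s = s'
    · rw [hne]
    · rw [key s s' hs hs' h1 h2 hne, key s' s hs' hs h2 h1 (Ne.symm hne)]; ring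

end SmoothWCI

end Vale.Agent.P271
end
end

section

section

open MvPolynomial

namespace Vale.Agent.P271

lemma exists_int_comb (a b c : ℕ) :
    ∃ x y t : ℤ, x * a + y * b + t * c = ((Nat.gcd (Nat.gcd a b) c : ℕ) : ℤ) := by
  have h1 := Nat.gcd_eq_gcd_ab (Nat.gcd a b) c
  have h2 := Nat.gcd_eq_gcd_ab a b
  refine ⟨Nat.gcdA a b * Nat.gcdA (Nat.gcd a b) c, Nat.gcdB a b * Nat.gcdA (Nat.gcd a b) c,
    Nat.gcdB (Nat.gcd a b) c, ?_⟩
  rw [h1, h2]
  ring

/-- A pair of distinct exponent vectors on `I` with the same degree `e`. -/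
def IsRel {ι : Type} [Fintype ι] (a : ι → ℕ) (I : Finset ι) (e : ℕ) (s s' : ι → ℕ) : Prop :=
  (∀ i, i ∉ I → s i = 0) ∧ (∀ i, i ∉ I → s' i = 0) ∧ s ≠ s' ∧
    ∑ i, a i * s i = e ∧ ∑ i, a i * s' i = e

lemma IsRel.symm {ι : Type} [Fintype ι] {a : ι → ℕ} {I : Finset ι} {e : ℕ} {s s' : ι → ℕ}
    (h : IsRel a I e s s') : IsRel a I e s' s :=
  ⟨h.2.1, h.1, h.2.2.1.symm, h.2.2.2.2, h.2.2.2.1⟩

/-- The relation of minimal degree for three weights. -/
lemma exists_min_rel {ι : Type} [Fintype ι] [DecidableEq ι] (a : ι → ℕ) (ha : ∀ i, 0 < a i)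
    (I : Finset ι) (hI : I.card = 3) :
    ∃ o p q : ι, o ≠ p ∧ o ≠ q ∧ p ≠ q ∧ I = {o, p, q} ∧ ∃ α β γ : ℕ, 0 < α ∧
      a o * α = a p * β + a q * γ ∧ Nat.gcd (Nat.gcd α β) γ = 1 ∧
      a o * α ≤ a o * a p ∧
      ∀ e s s', IsRel a I e s s' → a o * α ≤ e := by
  classical
  obtain ⟨x, y, z, hxy, hxz, hyz, hIeq⟩ := Finset.card_eq_three.1 hI
  -- existence of a relation for each ordered pair in `I`
  have hpair : ∀ u v, u ∈ I → v ∈ I → u ≠ v → IsRel a I (a u * a v)
      (fun i => if i = u then a v else 0) (fun i => if i = v then a u else 0) := by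
    intro u v hu hv huv
    refine ⟨?_, ?_, ?_, ?_, ?_⟩
    · intro i hi
      exact if_neg (by rintro rfl; exact hi hu)
    · intro i hi
      exact if_neg (by rintro rfl; exact hi hv)
    · intro h
      have := congrFun h u
      simp only [if_true] at this
      rw [if_neg huv] at this
      have := ha v
      omega
    · simp only [mul_ite, mul_zero, Finset.sum_ite_eq', Finset.mem_univ, ↓reduceIte]
    · simp only [mul_ite, mul_comm, mul_zero, Finset.sum_ite_eq', Finset.mem_univ, ↓reduceIte]
  have hex : ∃ e s s', IsRel a I e s s' :=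
    ⟨_, _, _, hpair x y (by simp [hIeq]) (by simp [hIeq]) hxy⟩
  obtain ⟨s, s', hrel⟩ := Nat.find_spec hex
  set e := Nat.find hex with he
  have hmin : ∀ e' t t', IsRel a I e' t t' → e ≤ e' := by
    intro e' t t' h
    exact Nat.find_min' hex ⟨t, t', h⟩
  obtain ⟨hs, hs', hne, hse, hse'⟩ := hrel
  -- positivity of the degree
  have hzero : ∀ t : ι → ℕ, ∑ i, a i * t i = 0 → t = 0 := by
    intro t ht
    funext i
    have := (Finset.sum_eq_zero_iff.1 ht) i (Finset.mem_univ i)
    rcases Nat.mul_eq_zero.1 this with h | h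
    · have := ha i; omega
    · exact h
  have hepos : 0 < e := by
    rcases Nat.eq_zero_or_pos e with h | h
    · exfalso
      rw [h] at hse hse'
      exact hne ((hzero s hse).trans (hzero s' hse').symm)
    · exact h
  -- the supports are disjoint
  have hdisj : ∀ i, s i = 0 ∨ s' i = 0 := by
    intro i
    by_contra hcon
    push Not at hcon
    obtain ⟨h1, h2⟩ := hcon
    have hsub : ∀ t : ι → ℕ, t i ≠ 0 → ∑ l, a l * t l = e →
        ∑ l, a l * (if l = i then t l - 1 else t l) = e - a i := by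
      intro t ht hte
      have e1 : ∑ l, a l * (if l = i then t l - 1 else t l) + a i = ∑ l, a l * t l := by
        rw [← Finset.add_sum_erase _ _ (Finset.mem_univ i), ← Finset.add_sum_erase Finset.univ
          (fun l => a l * t l) (Finset.mem_univ i)]
        have : ∑ l ∈ Finset.univ.erase i, a l * (if l = i then t l - 1 else t l) =
            ∑ l ∈ Finset.univ.erase i, a l * t l := by
          apply Finset.sum_congr rfl
          intro l hl
          rw [if_neg (Finset.ne_of_mem_erase hl)]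
        rw [this, if_pos rfl]
        obtain ⟨n, hn⟩ := Nat.exists_eq_succ_of_ne_zero ht
        rw [hn]
        simp only [Nat.succ_eq_add_one, Nat.add_sub_cancel]
        ring
      omega
    have h3 := hmin (e - a i) (fun l => if l = i then s l - 1 else s l)
      (fun l => if l = i then s' l - 1 else s' l) ⟨?_, ?_, ?_, hsub s h1 hse, hsub s' h2 hse'⟩
    · have := ha i
      omega
    · intro l hl
      have := hs l hl
      dsimp only
      split_ifs <;> omega
    · intro l hl
      have := hs' l hl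
      dsimp only
      split_ifs <;> omega
    · intro h
      apply hne
      funext l
      have := congrFun h l
      split_ifs at this with hl
      · subst hl; omega
      · exact this
  have hsne : s ≠ 0 := by
    rintro rfl
    simp only [Pi.zero_apply, mul_zero, Finset.sum_const_zero] at hse
    omega
  have hs'ne : s' ≠ 0 := by
    rintro rfl
    simp only [Pi.zero_apply, mul_zero, Finset.sum_const_zero] at hse'
    omega
  have hnot : ∀ t : ι → ℕ, (∀ i, i ∉ I → t i = 0) → t x = 0 → t y = 0 → t z = 0 → t = 0 := by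
    intro t ht h1 h2 h3
    funext i
    by_cases hi : i ∈ I
    · rw [hIeq] at hi
      simp only [Finset.mem_insert, Finset.mem_singleton] at hi
      rcases hi with rfl | rfl | rfl
      · exact h1
      · exact h2
      · exact h3
    · exact ht i hi
  -- the common final step
  have hfin : ∀ (o p q : ι) (t t' : ι → ℕ), o ≠ p → o ≠ q → p ≠ q → I = {o, p, q} →
      IsRel a I e t t' → t p = 0 → t q = 0 → t' o = 0 →
      ∃ o p q : ι, o ≠ p ∧ o ≠ q ∧ p ≠ q ∧ I = {o, p, q} ∧ ∃ α β γ : ℕ, 0 < α ∧
        a o * α = a p * β + a q * γ ∧ Nat.gcd (Nat.gcd α β) γ = 1 ∧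
        a o * α ≤ a o * a p ∧
        ∀ e s s', IsRel a I e s s' → a o * α ≤ e := by
    intro o p q t t' hop hoq hpq hI' ht h1 h2 h3
    obtain ⟨ht1, ht2, ht3, ht4, ht5⟩ := ht
    have hsum3 : ∀ g : ι → ℕ, (∀ i, i ∉ I → g i = 0) →
        ∑ i, a i * g i = a o * g o + (a p * g p + a q * g q) := by
      intro g hg
      have : ∑ i, a i * g i = ∑ i ∈ I, a i * g i := by
        symm
        apply Finset.sum_subset (Finset.subset_univ _)
        intro i _ hi
        rw [hg i hi, mul_zero]
      rw [this, hI', Finset.sum_insert (by simp [hop, hoq]), Finset.sum_pair hpq]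
    have e1 := hsum3 t ht1
    have e2 := hsum3 t' ht2
    rw [ht4, h1, h2] at e1
    rw [ht5, h3] at e2
    have hα : 0 < t o := by
      rcases Nat.eq_zero_or_pos (t o) with h | h
      · rw [h] at e1; omega
      · exact h
    have hαe : a o * t o = e := by omega
    refine ⟨o, p, q, hop, hoq, hpq, hI', t o, t' p, t' q, hα, by omega, ?_, ?_, ?_⟩
    · -- the gcd is one
      set g := Nat.gcd (Nat.gcd (t o) (t' p)) (t' q) with hg
      have hg0 : 0 < g := Nat.gcd_pos_of_pos_left _ (Nat.gcd_pos_of_pos_left _ hα)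
      obtain ⟨u, hu⟩ : g ∣ t o := (Nat.gcd_dvd_left _ _).trans (Nat.gcd_dvd_left _ _)
      obtain ⟨v, hv⟩ : g ∣ t' p := (Nat.gcd_dvd_left _ _).trans (Nat.gcd_dvd_right _ _)
      obtain ⟨w, hw⟩ : g ∣ t' q := Nat.gcd_dvd_right _ _
      have hou : a o * u = a p * v + a q * w := by
        have : g * (a o * u) = g * (a p * v + a q * w) := by
          calc g * (a o * u) = a o * t o := by rw [hu]; ring
            _ = a p * t' p + a q * t' q := by omega
            _ = g * (a p * v + a q * w) := by rw [hv, hw]; ring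
        exact Nat.eq_of_mul_eq_mul_left hg0 this
      have hrel' : IsRel a I (a o * u) (fun i => if i = o then u else 0)
          (fun i => if i = p then v else if i = q then w else 0) := by
        have f1 : ∀ i, i ∉ I → (fun i => if i = o then u else 0) i = 0 := by
          intro i hi
          exact if_neg (by rintro rfl; exact hi (by simp [hI']))
        have f2 : ∀ i, i ∉ I → (fun i => if i = p then v else if i = q then w else 0) i = 0 := by
          intro i hi
          dsimp only
          rw [if_neg (by rintro rfl; exact hi (by simp [hI'])),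
            if_neg (by rintro rfl; exact hi (by simp [hI']))]
        refine ⟨f1, f2, ?_, ?_, ?_⟩
        · intro h
          have := congrFun h o
          simp only [if_true] at this
          rw [if_neg hop, if_neg hoq] at this
          rw [this, mul_zero] at hu
          omega
        · rw [hsum3 _ f1]
          simp [hop.symm, hoq.symm]
        · rw [hsum3 _ f2, hou]
          simp [hop, hoq, hpq.symm]
      have := hmin _ _ _ hrel'
      rw [← hαe, hu] at this
      have h5 : g * u ≤ 1 * u := by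
        rw [one_mul]
        exact Nat.le_of_mul_le_mul_left this (ha o)
      have hu0 : 0 < u := by
        rcases Nat.eq_zero_or_pos u with h | h
        · rw [h, mul_zero] at hu; omega
        · exact h
      have := Nat.le_of_mul_le_mul_right h5 hu0
      omega
    · rw [hαe]
      exact hmin _ _ _ (hpair o p (by simp [hI']) (by simp [hI']) hop)
    · intro e' t1 t2 h
      rw [hαe]
      exact hmin _ _ _ h
  have hR : IsRel a I e s s' := ⟨hs, hs', hne, hse, hse'⟩
  rcases hdisj x with hx | hx <;> rcases hdisj y with hy | hy <;> rcases hdisj z with hz | hz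
  · exact absurd (hnot s hs hx hy hz) hsne
  · -- `s` lone at `z`
    exact hfin z x y s s' hxz.symm hyz.symm hxy (by rw [hIeq]; ext i; simp; (clear * - hex he hmin hse hse' hepos hfin hR; tauto)) hR hx hy hz
  · exact hfin y x z s s' hxy.symm hyz hxz (by rw [hIeq]; ext i; simp; (clear * - hex he hmin hse hse' hepos hfin hR; tauto)) hR hx hz hy
  · exact hfin x y z s' s hxy hxz hyz hIeq hR.symm hy hz hx
  · exact hfin x y z s s' hxy hxz hyz hIeq hR hy hz hx
  · exact hfin y x z s' s hxy.symm hyz hxz (by rw [hIeq]; ext i; simp; (clear * - hex he hmin hse hse' hepos hfin hR; tauto)) hR.symm hx hz hy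
  · exact hfin z x y s' s hxz.symm hyz.symm hxy (by rw [hIeq]; ext i; simp; (clear * - hex he hmin hse hse' hepos hfin hR; tauto)) hR.symm hx hy hz
  · exact absurd (hnot s' hs' hx hy hz) hs'ne

/-- The binomial transfer identity. -/
lemma binom_transfer (xo xp xq zo zp zq : ℂ) (α β γ n so so' sp sp' sq sq' : ℕ)
    (h : xo ^ α * (zp ^ β * zq ^ γ) = zo ^ α * (xp ^ β * xq ^ γ))
    (e0 : so = so' + n * α) (e1 : sp' = sp + n * β) (e2 : sq' = sq + n * γ) :
    xo ^ so * (xp ^ sp * xq ^ sq) * (zo ^ so' * (zp ^ sp' * zq ^ sq')) =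
      xo ^ so' * (xp ^ sp' * xq ^ sq') * (zo ^ so * (zp ^ sp * zq ^ sq)) := by
  subst e0 e1 e2
  have hpow := congrArg (fun r => r ^ n) h
  simp only [mul_pow, ← pow_mul] at hpow
  simp only [pow_add, mul_comm n]
  linear_combination (xo ^ so' * (xp ^ sp * xq ^ sq) * (zo ^ so' * (zp ^ sp * zq ^ sq))) * hpow

/-- The transfer identity for two exponent vectors of the same small degree. -/
lemma transfer_three (ao ap aq α β γ dj : ℕ) (hao : 0 < ao) (hap : 0 < ap) (haq : 0 < aq)
    (hα : 0 < α) (hrelZ : (α : ℤ) * ao = β * ap + γ * aq)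
    (hb : ∃ x y t : ℤ, x * α + y * β + t * γ = 1)
    (hg : ∃ x y t : ℤ, x * ao + y * ap + t * aq = 1)
    (hsmall : α * dj < ap * aq) (xo xp xq zo zp zq : ℂ)
    (h : xo ^ α * (zp ^ β * zq ^ γ) = zo ^ α * (xp ^ β * xq ^ γ))
    (so so' sp sp' sq sq' : ℕ) (h1 : ao * so + (ap * sp + aq * sq) = dj)
    (h2 : ao * so' + (ap * sp' + aq * sq') = dj) :
    xo ^ so * (xp ^ sp * xq ^ sq) * (zo ^ so' * (zp ^ sp' * zq ^ sq')) =
      xo ^ so' * (xp ^ sp' * xq ^ sq') * (zo ^ so * (zp ^ sp * zq ^ sq)) := by
  have c1 : (ao : ℤ) * so + (ap * sp + aq * sq) = dj := by exact_mod_cast h1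
  have c2 : (ao : ℤ) * so' + (ap * sp' + aq * sq') = dj := by exact_mod_cast h2
  have nn : ∀ (u v : ℕ), (0 : ℤ) ≤ (u : ℤ) * v := fun u v => by (clear * -; positivity)
  obtain ⟨l, hl0, hl1, hl2⟩ := parallel_of_small ao ap aq α β γ
    ((so : ℤ) - so') ((sp : ℤ) - sp') ((sq : ℤ) - sq') dj
    (by exact_mod_cast hao) (by exact_mod_cast hap) (by exact_mod_cast haq)
    (by exact_mod_cast hα) (Int.natCast_nonneg _) (Int.natCast_nonneg _) hrelZ
    hb hg (by linarith only [h1, h2])
    (by linarith only [h1, nn ao so, nn ap sp', nn aq sq])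
    (by linarith only [h2, nn ao so', nn ap sp', nn aq sq])
    (by linarith only [h2, nn ao so', nn ap sp, nn aq sq'])
    (by linarith only [h1, nn ao so, nn ap sp, nn aq sq'])
    (by exact_mod_cast hsmall)
  rcases le_or_gt 0 l with hl | hl
  · obtain ⟨n, rfl⟩ := Int.eq_ofNat_of_zero_le hl
    apply binom_transfer xo xp xq zo zp zq α β γ n so so' sp sp' sq sq' h
    · have : (so : ℤ) = ((so' + n * α : ℕ) : ℤ) := by push_cast; linarith only [hl0]
      exact_mod_cast this
    · have : (sp' : ℤ) = ((sp + n * β : ℕ) : ℤ) := by push_cast; linarith only [hl1]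
      exact_mod_cast this
    · have : (sq' : ℤ) = ((sq + n * γ : ℕ) : ℤ) := by push_cast; linarith only [hl2]
      exact_mod_cast this
  · obtain ⟨n, hn⟩ := Int.eq_ofNat_of_zero_le (neg_nonneg.2 hl.le)
    have hl' : l = -(n : ℤ) := by omega
    subst hl'
    symm
    apply binom_transfer xo xp xq zo zp zq α β γ n so' so sp' sp sq' sq h
    · have : (so' : ℤ) = ((so + n * α : ℕ) : ℤ) := by push_cast; linarith only [hl0]
      exact_mod_cast this
    · have : (sp : ℤ) = ((sp' + n * β : ℕ) : ℤ) := by push_cast; linarith only [hl1]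
      exact_mod_cast this
    · have : (sq : ℤ) = ((sq' + n * γ : ℕ) : ℤ) := by push_cast; linarith only [hl2]
      exact_mod_cast this

/-- Representability for three weights, over the natural numbers. -/
lemma rep_three (ao ap aq α β γ e y T : ℕ) (hao : 0 < ao) (hap : 0 < ap) (haq : 0 < aq)
    (hα : 0 < α) (he : e = ao * α) (hrelZ : (α : ℤ) * ao = β * ap + γ * aq)
    (hb : ∃ x y t : ℤ, x * α + y * β + t * γ = 1)
    (hg : ∃ x y t : ℤ, x * ao + y * ap + t * aq = 1)
    (hye' : ao * ap * aq < (y + 1) * e) (hT : e + y < T) :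
    ∃ n0 n1 n2 : ℕ, 0 < n0 ∧ 0 < n1 ∧ 0 < n2 ∧ ao * n0 + (ap * n1 + aq * n2) = T := by
  have hT' : (α : ℤ) * (α * ao) + ap * aq < α * T := by
    have h1 : ap * aq < α * (y + 1) := by
      have : ao * (ap * aq) < ao * (α * (y + 1)) := by
        calc ao * (ap * aq) = ao * ap * aq := by ring
          _ < (y + 1) * e := hye'
          _ = ao * (α * (y + 1)) := by rw [he]; ring
      exact lt_of_mul_lt_mul_left this (Nat.zero_le _)
    have h2 : α * (e + (y + 1)) ≤ α * T := Nat.mul_le_mul_left _ (by omega)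
    have h3 : α * e + ap * aq < α * T := by
      have : α * (e + (y + 1)) = α * e + α * (y + 1) := by ring
      omega
    have h4 : ((α * e + ap * aq : ℕ) : ℤ) < ((α * T : ℕ) : ℤ) := by exact_mod_cast h3
    rw [he] at h4
    push_cast at h4
    linarith only [h4]
  obtain ⟨z0, z1, z2, p0, p1, p2, hsum⟩ := kl_three ao ap aq α β γ T
    (by exact_mod_cast hap) (by exact_mod_cast haq) (by exact_mod_cast hα)
    (Int.natCast_nonneg _) (Int.natCast_nonneg _) hrelZ hb hg hT'
  obtain ⟨n0, rfl⟩ := Int.eq_ofNat_of_zero_le p0.le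
  obtain ⟨n1, rfl⟩ := Int.eq_ofNat_of_zero_le p1.le
  obtain ⟨n2, rfl⟩ := Int.eq_ofNat_of_zero_le p2.le
  refine ⟨n0, n1, n2, by omega, by omega, by omega, ?_⟩
  have h5 : ((ao * n0 + (ap * n1 + aq * n2) : ℕ) : ℤ) = (T : ℤ) := by
    push_cast
    linarith only [hsum]
  exact_mod_cast h5

namespace SmoothWCI

variable {N c : ℕ} (W : SmoothWCI N c)

/-- The case of a support with three elements. -/
lemma exists_rep_of_card_three (hn : c ≤ N) {z : Fin (N + 1) → ℂ} (hz : z ≠ 0)
    (hf : ∀ j, eval z (W.f j) = 0) (hcard : (supp z).card = 3)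
    {k m : ℕ} (hk : 1 ≤ k) (hm : N - c + 1 ≤ m) :
    ∃ s : Fin (N + 1) → ℕ, (∀ i, i ∉ supp z → s i = 0) ∧
      (∑ i, (W.a i : ℤ) * s i) = W.canonicalDegree + m * k := by
  classical
  obtain ⟨o, p, q, hop, hoq, hpq, hIeq, α, β, γ, hα, hrel, hprim, hle, hmin⟩ :=
    exists_min_rel W.a W.a_pos (supp z) hcard
  have hgcd := W.gcd_supp hz hf
  set I := supp z with hI
  have hoI : o ∈ I := by simp [hIeq]
  have hpI : p ∈ I := by simp [hIeq]
  have hqI : q ∈ I := by simp [hIeq]
  have ha := W.a_pos
  set e := W.a o * α with he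
  have he0 : 0 < e := Nat.mul_pos (ha o) hα
  set y := (W.a o * W.a p * W.a q) / e with hy
  have hy1 : 1 ≤ y := by
    rw [hy, Nat.one_le_div_iff he0]
    exact hle.trans (Nat.le_mul_of_pos_right _ (ha q))
  have hye : y * e ≤ W.a o * W.a p * W.a q := Nat.div_mul_le_self _ _
  have hye' : W.a o * W.a p * W.a q < (y + 1) * e := by
    have := Nat.lt_div_mul_add he0 (a := W.a o * W.a p * W.a q)
    rw [← hy] at this
    calc _ < y * e + e := this
      _ = (y + 1) * e := by ring
  have herase : I.erase o = {p, q} := by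
    rw [hIeq, Finset.erase_insert]
    simp [hop, hoq]
  -- products and sums over `I`
  have hsum3 : ∀ g : Fin (N + 1) → ℕ, (∀ i, i ∉ I → g i = 0) →
      ∑ i, W.a i * g i = W.a o * g o + (W.a p * g p + W.a q * g q) := by
    intro g hg
    have : ∑ i, W.a i * g i = ∑ i ∈ I, W.a i * g i := by
      symm
      apply Finset.sum_subset (Finset.subset_univ _)
      intro i _ hi
      rw [hg i hi, mul_zero]
    rw [this, hIeq, Finset.sum_insert (by simp [hop, hoq]), Finset.sum_pair hpq]
  have hprod3 : ∀ (x : Fin (N + 1) → ℂ) (g : Fin (N + 1) → ℕ), (∀ i, i ∉ I → g i = 0) →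
      ∏ i, x i ^ g i = x o ^ g o * (x p ^ g p * x q ^ g q) := by
    intro x g hg
    have : ∏ i, x i ^ g i = ∏ i ∈ I, x i ^ g i := by
      symm
      apply Finset.prod_subset (Finset.subset_univ _)
      intro i _ hi
      rw [hg i hi, pow_zero]
    rw [this, hIeq, Finset.prod_insert (by simp [hop, hoq]), Finset.prod_pair hpq]
  have hprodI : ∏ i ∈ I, W.a i = W.a o * W.a p * W.a q := by
    rw [hIeq, Finset.prod_insert (by simp [hop, hoq]), Finset.prod_pair hpq]; ring
  obtain ⟨b1, b2, b3, hb⟩ := exists_int_comb α β γ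
  rw [hprim, Nat.cast_one] at hb
  have hgcd' : Nat.gcd (Nat.gcd (W.a o) (W.a p)) (W.a q) = 1 := by
    rw [hIeq, Finset.gcd_insert, Finset.gcd_insert, Finset.gcd_singleton, normalize_eq] at hgcd
    rw [Nat.gcd_assoc]
    exact hgcd
  obtain ⟨g1, g2, g3, hg⟩ := exists_int_comb (W.a o) (W.a p) (W.a q)
  rw [hgcd', Nat.cast_one] at hg
  have hrelZ : (α : ℤ) * W.a o = β * W.a p + γ * W.a q := by
    have : ((W.a o * α : ℕ) : ℤ) = ((W.a p * β + W.a q * γ : ℕ) : ℤ) := by rw [← he, hrel]
    push_cast at this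
    linarith only [hrel, he]
  apply W.exists_rep_of_fun hn o hoI (fun i => if i = p then e else y) ?_ ?_ ?_ hk hm
  · intro i _
    split_ifs
    · exact he0
    · exact hy1
  · -- representability
    intro T hT
    rw [herase, Finset.sum_pair hpq, if_pos rfl, if_neg hpq.symm] at hT
    obtain ⟨n0, n1, n2, p0, p1, p2, hsum⟩ := rep_three (W.a o) (W.a p) (W.a q) α β γ e y T
      (ha o) (ha p) (ha q) hα he hrelZ ⟨b1, b2, b3, hb⟩ ⟨g1, g2, g3, hg⟩ hye' hT
    refine ⟨fun i => if i = o then n0 else if i = p then n1 else n2, ?_, ?_⟩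
    · intro i _
      dsimp only
      split_ifs <;> omega
    · show ∑ i ∈ I, W.a i * (if i = o then n0 else if i = p then n1 else n2) = T
      rw [hIeq, Finset.sum_insert (by simp [hop, hoq]), Finset.sum_pair hpq]
      rw [if_pos rfl, if_neg hop.symm, if_pos rfl, if_neg hoq.symm, if_neg hpq.symm]
      exact hsum
  · -- thresholds
    intro v hv
    rw [herase]
    have hdisj : Disjoint I (Iᶜ.filter (fun i => v ≤ W.a i)) := by
      rw [Finset.disjoint_left]
      intro i h1 h2
      exact (Finset.mem_compl.1 (Finset.mem_filter.1 h2).1) h1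
    set J := ∏ i ∈ Iᶜ.filter (fun i => v ≤ W.a i), W.a i with hJ
    -- bound of the filtered product
    have hbase : J ≤ ∏ j with v ≤ W.d j, W.d j := by
      apply W.prod_le'
      intro k' _ x hx j hj
      apply W.eval_transfer j v hj (hf j)
      · intro i _ hvi
        apply hx
        rintro ⟨hi, -⟩
        have := (Finset.mem_filter.1 hi).2
        omega
      · have hz0 : ∀ s : Fin (N + 1) → ℕ, (∀ i, i ∉ I → s i = 0) →
            ∑ i, W.a i * s i = W.d j → (∏ i, x i ^ s i) = 0 := by
          intro s hs h1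
          obtain ⟨i, hi⟩ : ∃ i, s i ≠ 0 := by
            by_contra h
            push Not at h
            have : ∑ i, W.a i * s i = 0 := Finset.sum_eq_zero (fun i _ => by rw [h i, mul_zero])
            have := W.d_pos j
            omega
          apply Finset.prod_eq_zero (Finset.mem_univ i)
          have : x i = 0 := by
            apply hx
            rintro ⟨h, -⟩
            have h2 := Finset.mem_compl.1 (Finset.mem_filter.1 h).1
            exact hi (hs i h2)
          rw [this, zero_pow hi]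
        intro s s' hs hs' h1 h2
        rw [hz0 s hs h1, hz0 s' hs' h2]; ring
    by_cases hve : v ≤ e
    · -- no relation of degree less than `v`
      have h1 : (∏ i ∈ ({p, q} : Finset (Fin (N + 1))).filter
          (fun i => v ≤ if i = p then e else y), (if i = p then e else y)) ≤
          W.a o * W.a p * W.a q := by
        refine le_trans (Finset.prod_le_prod_of_subset_of_one_le' (Finset.filter_subset _ _) ?_) ?_
        · intro i _ _
          split_ifs
          · exact he0
          · exact hy1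
        · rw [Finset.prod_pair hpq, if_pos rfl, if_neg hpq.symm, mul_comm]
          exact hye
      calc _ ≤ (W.a o * W.a p * W.a q) * J := Nat.mul_le_mul_right _ h1
        _ = ∏ i ∈ I ∪ (Iᶜ.filter (fun i => v ≤ W.a i)), W.a i := by
            rw [Finset.prod_union hdisj, hprodI]
        _ ≤ _ := ?_
      apply W.prod_le'
      intro k' _ x hx j hj
      apply W.eval_transfer j v hj (hf j)
      · intro i hi hvi
        apply hx
        rintro ⟨hi', -⟩
        rcases Finset.mem_union.1 hi' with h | h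
        · exact hi h
        · have := (Finset.mem_filter.1 h).2
          omega
      · intro s s' hs hs' h1 h2
        by_cases hne : s = s'
        · rw [hne]
        · exfalso
          have := hmin (W.d j) s s' ⟨hs, hs', hne, h1, h2⟩
          omega
    · by_cases hvy : v ≤ y
      · -- the auxiliary binomial
        have h1 : (∏ i ∈ ({p, q} : Finset (Fin (N + 1))).filter
            (fun i => v ≤ if i = p then e else y), (if i = p then e else y)) = y := by
          rw [Finset.prod_filter, Finset.prod_pair hpq, if_pos rfl, if_neg hve,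
            if_neg hpq.symm, if_pos hvy, one_mul]
        rw [h1]
        set t : Fin (N + 1) → ℕ := fun i => if i = o then α else 0 with ht
        set t' : Fin (N + 1) → ℕ := fun i => if i = p then β else if i = q then γ else 0 with ht'
        have htI : ∀ i, i ∉ I → t i = 0 := by
          intro i hi
          exact if_neg (by rintro rfl; exact hi hoI)
        have ht'I : ∀ i, i ∉ I → t' i = 0 := by
          intro i hi
          show (if i = p then β else if i = q then γ else 0) = 0
          rw [if_neg (by rintro rfl; exact hi hpI), if_neg (by rintro rfl; exact hi hqI)]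
        have hto : t o = α := if_pos rfl
        have htp : t p = 0 := if_neg hop.symm
        have htq : t q = 0 := if_neg hoq.symm
        have ht'o : t' o = 0 := by
          show (if o = p then β else if o = q then γ else 0) = 0
          rw [if_neg hop, if_neg hoq]
        have ht'p : t' p = β := if_pos rfl
        have ht'q : t' q = γ := by
          show (if q = p then β else if q = q then γ else 0) = γ
          rw [if_neg hpq.symm, if_pos rfl]
        set b : MvPolynomial (Fin (N + 1)) ℂ :=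
          C (∏ i, z i ^ t' i) * monomial (Finsupp.equivFunOnFinite.symm t) 1 -
          C (∏ i, z i ^ t i) * monomial (Finsupp.equivFunOnFinite.symm t') 1 with hb'
        have hdegmon : ∀ g : Fin (N + 1) → ℕ, ∑ i, W.a i * g i = e →
            IsWeightedHomogeneous W.a (monomial (Finsupp.equivFunOnFinite.symm g) (1 : ℂ)) e := by
          intro g hge
          apply isWeightedHomogeneous_monomial
          rw [Finsupp.weight_apply, Finsupp.sum_fintype _ _ (fun i => by simp), ← hge]
          apply Finset.sum_congr rfl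
          intro i _
          simp [mul_comm]
        have hCm : ∀ (r : ℂ) (P : MvPolynomial (Fin (N + 1)) ℂ), IsWeightedHomogeneous W.a P e →
            IsWeightedHomogeneous W.a (C r * P) e := by
          intro r P hP
          have := (isWeightedHomogeneous_C W.a r).mul hP
          rwa [zero_add] at this
        have hbhom : IsWeightedHomogeneous W.a b e := by
          apply (weightedHomogeneousSubmodule ℂ W.a e).sub_mem
          · exact hCm _ _ (hdegmon t (by rw [hsum3 t htI, hto, htp, htq]; omega))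
          · exact hCm _ _ (hdegmon t' (by rw [hsum3 t' ht'I, ht'o, ht'p, ht'q]; (clear * - hrel; omega)))
        have hbeval : ∀ x : Fin (N + 1) → ℂ, eval x b = 0 →
            x o ^ α * (z p ^ β * z q ^ γ) = z o ^ α * (x p ^ β * x q ^ γ) := by
          intro x hx
          have hmon : ∀ g : Fin (N + 1) → ℕ,
              eval x (monomial (Finsupp.equivFunOnFinite.symm g) (1 : ℂ)) = ∏ i, x i ^ g i := by
            intro g
            rw [eval_monomial, one_mul, Finsupp.prod_fintype _ _ (fun i => by simp)]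
            rfl
          rw [hb', map_sub, map_mul, map_mul, eval_C, eval_C, hmon, hmon, hprod3 z t' ht'I,
            hprod3 z t htI, hprod3 x t htI, hprod3 x t' ht'I, hto, htp, htq, ht'o, ht'p, ht'q]
            at hx
          simp only [pow_zero, one_mul, mul_one] at hx
          linear_combination hx
        have hmain := W.prod_le v (I ∪ (Iᶜ.filter (fun i => v ≤ W.a i))) b e he0 hbhom ?_
        · rw [Finset.prod_union hdisj, hprodI] at hmain
          have : e * (y * J) ≤ e * ∏ j with v ≤ W.d j, W.d j := by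
            calc e * (y * J) = (y * e) * J := by ring
              _ ≤ (W.a o * W.a p * W.a q) * J := Nat.mul_le_mul_right _ hye
              _ ≤ _ := hmain
              _ = _ := mul_comm _ _
          exact Nat.le_of_mul_le_mul_left this he0
        · intro k' _ x hx hbx j hj
          apply W.eval_transfer j v hj (hf j)
          · intro i hi hvi
            apply hx
            rintro ⟨hi', -⟩
            rcases Finset.mem_union.1 hi' with h | h
            · exact hi h
            · have := (Finset.mem_filter.1 h).2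
              omega
          · have hbx' := hbeval x hbx
            intro s s' hs hs' h1' h2'
            rw [hprod3 x s hs, hprod3 x s' hs', hprod3 z s hs, hprod3 z s' hs']
            rw [hsum3 s hs] at h1'
            rw [hsum3 s' hs'] at h2'
            set dj := W.d j with hdj
            have hsmall : α * dj < W.a p * W.a q := by
              have h3 : dj < y := by omega
              have h4 : W.a o * (α * dj) < W.a o * (W.a p * W.a q) := by
                calc W.a o * (α * dj) = dj * e := by rw [he]; ring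
                  _ < y * e := Nat.mul_lt_mul_of_pos_right h3 he0
                  _ ≤ W.a o * W.a p * W.a q := hye
                  _ = W.a o * (W.a p * W.a q) := by ring
              exact lt_of_mul_lt_mul_left h4 (Nat.zero_le _)
            exact transfer_three (W.a o) (W.a p) (W.a q) α β γ dj (ha o) (ha p) (ha q) hα hrelZ
              ⟨b1, b2, b3, hb⟩ ⟨g1, g2, g3, hg⟩ hsmall _ _ _ _ _ _ hbx' _ _ _ _ _ _ h1' h2'
      · have h1 : (∏ i ∈ ({p, q} : Finset (Fin (N + 1))).filter
            (fun i => v ≤ if i = p then e else y), (if i = p then e else y)) = 1 := by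
          rw [Finset.prod_filter, Finset.prod_pair hpq, if_pos rfl, if_neg hve,
            if_neg hpq.symm, if_neg hvy, one_mul]
        rw [h1, one_mul]
        exact hbase

end SmoothWCI

end Vale.Agent.P271
end
end

section

section

open MvPolynomial

namespace Vale.Agent.P271

namespace SmoothWCI

variable {N c : ℕ} (W : SmoothWCI N c)

/-- Every point specializes to a point with minimal support, which has at most `c + 1` nonzero
coordinates. -/
lemma exists_min_support {x : Fin (N + 1) → ℂ} (hx : x ≠ 0) (hf : ∀ j, eval x (W.f j) = 0) :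
    ∃ z : Fin (N + 1) → ℂ, z ≠ 0 ∧ (∀ j, eval z (W.f j) = 0) ∧ supp z ⊆ supp x ∧
      (supp z).card ≤ c + 1 := by
  classical
  -- the finite set of supports of points below `x`
  set S : Finset (Finset (Fin (N + 1))) := Finset.univ.filter (fun I =>
    ∃ z : Fin (N + 1) → ℂ, z ≠ 0 ∧ (∀ j, eval z (W.f j) = 0) ∧ supp z = I ∧ I ⊆ supp x) with hS
  have hne : S.Nonempty := ⟨supp x, Finset.mem_filter.2 ⟨Finset.mem_univ _, x, hx, hf, rfl,
    Finset.Subset.refl _⟩⟩
  obtain ⟨I, hI, hmin⟩ := Finset.exists_min_image S Finset.card hne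
  rw [hS, Finset.mem_filter] at hI
  obtain ⟨-, z, hz, hfz, rfl, hsub⟩ := hI
  refine ⟨z, hz, hfz, hsub, ?_⟩
  obtain ⟨i₀, hi₀⟩ := supp_nonempty hz
  have hT := card_le_card_of_unique_zero (ι := {i // i ∈ (supp z).erase i₀}) (κ := Fin c)
    (fun j => restr ((supp z).erase i₀) (W.f j)) ?_ ?_
  · rw [Fintype.card_coe, Fintype.card_fin, Finset.card_erase_of_mem hi₀] at hT
    omega
  · intro j
    have h0 : extend ((supp z).erase i₀) (0 : {i // i ∈ (supp z).erase i₀} → ℂ) = 0 := by
      funext i
      simp only [extend]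
      split_ifs <;> rfl
    rw [eval_restr, h0]
    exact W.eval_zero_of_homogeneous j
  · intro y hy
    set u := extend ((supp z).erase i₀) y with hu
    have huT : ∀ i, i ∉ (supp z).erase i₀ → u i = 0 := by
      intro i hi
      simp [hu, extend, hi]
    have huf : ∀ j, eval u (W.f j) = 0 := by
      intro j
      have := hy j
      rwa [eval_restr] at this
    have hu0 : u = 0 := by
      by_contra hne'
      have hsubu : supp u ⊆ (supp z).erase i₀ := by
        intro i hi
        by_contra h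
        exact mem_supp.1 hi (huT i h)
      have h1 := hmin (supp u) (Finset.mem_filter.2 ⟨Finset.mem_univ _, u, hne', huf, rfl,
        hsubu.trans ((Finset.erase_subset _ _).trans hsub)⟩)
      have h2 := Finset.card_le_card hsubu
      have h3 := Finset.card_erase_lt_of_mem hi₀
      omega
    funext i
    have := congrFun hu0 i
    simpa [hu, extend, i.2] using this

/-- A representation on a smaller support gives a section at the original point. -/
lemma exists_section_of_subset {x z : Fin (N + 1) → ℂ} (hsub : supp z ⊆ supp x) {e : ℤ}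
    (h : ∃ s : Fin (N + 1) → ℕ, (∀ i, i ∉ supp z → s i = 0) ∧ (∑ i, (W.a i : ℤ) * s i) = e) :
    ∃ g : MvPolynomial (Fin (N + 1)) ℂ,
      IsWeightedHomogeneous (fun i => (W.a i : ℤ)) g e ∧ eval x g ≠ 0 := by
  obtain ⟨s, hs1, hs2⟩ := h
  exact W.exists_section_of_rep s (fun i hi => hs1 i (fun h => hi (hsub h))) hs2

end SmoothWCI

end Vale.Agent.P271
end
end
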